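import Vale.Agent.P073Y.Sg.Sk

/-!
# Merging of balls
-/

open Set Metric Topology Filter

namespace P073.Sg

namespace Cv

variable {ι E : Type} [NormedAddCommGroup E] [NormedSpace ℝ E] [DecidableEq ι]

/-- the radius of a cluster -/
def rad (s : Finset ι) (V : ι → ℝ) (a : ι → ι) (j : ι) : ℝ := ∑ i ∈ s with a i = j, V i

theorem rad_pos {s : Finset ι} {V : ι → ℝ} (hV : ∀ i ∈ s, 0 < V i) {a : ι → ι} {j : ι}
    (hj : j ∈ s.image a) : 0 < rad s V a j := by
  obtain ⟨i, hi, rfl⟩ := Finset.mem_image.1 hj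
  exact Finset.sum_pos (fun k hk => hV k (Finset.mem_filter.1 hk).1)
    ⟨i, Finset.mem_filter.2 ⟨hi, rfl⟩⟩

theorem sum_rad (s : Finset ι) (V : ι → ℝ) (a : ι → ι) :
    ∑ j ∈ s.image a, rad s V a j = ∑ i ∈ s, V i :=
  Finset.sum_fiberwise_of_maps_to (fun _ hi => Finset.mem_image_of_mem a hi) V

theorem merge_aux (s : Finset ι) (y : ι → E) {V : ι → ℝ} (hV : ∀ i ∈ s, 0 < V i) (n : ℕ) :
    ∀ (a : ι → ι) (c : ι → E), (s.image a).card < n →
    (∀ i ∈ s, closedBall (y i) (V i) ⊆ closedBall (c (a i)) (rad s V a (a i))) →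
    ∃ (a : ι → ι) (c : ι → E),
      (∀ i ∈ s, closedBall (y i) (V i) ⊆ closedBall (c (a i)) (rad s V a (a i))) ∧
      ∀ j ∈ s.image a, ∀ j' ∈ s.image a, j ≠ j' →
        rad s V a j + rad s V a j' < dist (c j) (c j') := by
  induction n with
  | zero => exact fun _ _ h => absurd h (Nat.not_lt_zero _)
  | succ n ih =>
    intro a c hn h
    by_cases h1 : ∀ j ∈ s.image a, ∀ j' ∈ s.image a, j ≠ j' →
        rad s V a j + rad s V a j' < dist (c j) (c j')
    · exact ⟨a, c, h, h1⟩
    push Not at h1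
    obtain ⟨j, hj, j', hj', hne, hd⟩ := h1
    obtain ⟨z, z1, z2⟩ := exists_dist_le_le (rad_pos hV hj').le (rad_pos hV hj).le hd
    refine ih (fun i => if a i = j' then j else a i) (Function.update c j z) ?_ fun i hi => ?_
    · refine lt_of_le_of_lt (Finset.card_le_card (t := (s.image a).erase j') ?_)
        ((Finset.card_erase_lt_of_mem hj').trans_le (Nat.lt_succ_iff.1 hn))
      refine Finset.image_subset_iff.2 fun i hi => Finset.mem_erase.2 ?_
      split_ifs with h2
      exacts [⟨hne, hj⟩, ⟨h2, Finset.mem_image_of_mem a hi⟩]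
    have h2 : rad s V (fun i => if a i = j' then j else a i) j = rad s V a j + rad s V a j' := by
      simp only [rad, Finset.sum_filter, ← Finset.sum_add_distrib]
      refine Finset.sum_congr rfl fun k _ => ?_
      by_cases h3 : a k = j'
      · simp [h3, hne.symm]
      · simp [h3]
    refine (h i hi).trans ?_
    by_cases h3 : a i = j'
    · rw [if_pos h3, h2, Function.update_self, h3]
      exact closedBall_subset_closedBall' (by rw [dist_comm]; linarith)
    rw [if_neg h3]
    by_cases h4 : a i = j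
    · rw [h4, h2, Function.update_self]
      exact closedBall_subset_closedBall' (by linarith)
    rw [Function.update_of_ne h4]
    refine closedBall_subset_closedBall (le_of_eq (Finset.sum_congr
      (Finset.filter_congr fun k _ => ?_) fun _ _ => rfl))
    by_cases h5 : a k = j'
    · simp [h5, Ne.symm h3, Ne.symm h4]
    · simp [h5]

/-- clusters of balls with additive radii -/
theorem merge (s : Finset ι) (y : ι → E) {V : ι → ℝ} (hV : ∀ i ∈ s, 0 < V i) :
    ∃ (a : ι → ι) (c : ι → E),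
      (∀ i ∈ s, closedBall (y i) (V i) ⊆ closedBall (c (a i)) (rad s V a (a i))) ∧
      ∀ j ∈ s.image a, ∀ j' ∈ s.image a, j ≠ j' →
        rad s V a j + rad s V a j' < dist (c j) (c j') :=
  merge_aux s y hV _ id y (Nat.lt_succ_self _) fun _ hi => closedBall_subset_closedBall
    (Finset.single_le_sum (fun k hk => (hV k (Finset.mem_filter.1 hk).1).le)
      (Finset.mem_filter.2 ⟨hi, rfl⟩))

end Cv

open Cv

theorem cover : COVER := by
  classical
  intro ι s y V hV
  obtain ⟨a, c, h1, h2⟩ := merge s y hV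
  have e0 : ∀ {ε : ℝ}, 0 < ε → ∀ᶠ δ in 𝓝[>] (0 : ℝ), δ < ε := fun h =>
    (eventually_lt_nhds h).filter_mono nhdsWithin_le_nhds
  have e1 : ∀ᶠ δ in 𝓝[>] (0 : ℝ), ∀ j ∈ s.image a, δ < rad s V a j :=
    (eventually_all_finset _).2 fun j hj => e0 (rad_pos hV hj)
  have e2 : ∀ᶠ δ in 𝓝[>] (0 : ℝ), ∀ j ∈ s.image a, ∀ j' ∈ s.image a, j ≠ j' →
      δ < (dist (c j) (c j') - (rad s V a j + rad s V a j')) / 2 :=
    (eventually_all_finset _).2 fun j hj => (eventually_all_finset _).2 fun j' hj' =>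
      eventually_imp_distrib_left.2 fun h => e0 (half_pos (sub_pos.2 (h2 j hj j' hj' h)))
  obtain ⟨δ, d0, d1, d2⟩ :=
    ((eventually_mem_nhdsWithin (a := (0 : ℝ)) (s := Ioi 0)).and (e1.and e2)).exists
  refine ⟨s.image a, c, rad s V a, fun j => rad s V a j + δ, fun j hj => ⟨rad_pos hV hj,
    lt_add_of_pos_right _ d0, by linarith [d1 j hj], ?_⟩,
    fun j hj j' hj' h => ball_disjoint_ball (by linarith [d2 j hj j' hj' h]),
    fun i hi => ⟨a i, Finset.mem_image_of_mem a hi, h1 i hi⟩, (sum_rad s V a).le⟩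
  obtain ⟨i, hi, rfl⟩ := Finset.mem_image.1 hj
  exact ⟨i, hi, h1 i hi⟩

end P073.Sg
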