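import Vale.Agent.P073Y.Sg.Sk

/-!
# A level whose crossing cells have small total weight
-/

open Set Metric Topology Filter MeasureTheory

namespace P073.Sg

namespace Loop

open Classical in
/-- averaging over the level -/
theorem exists_level {ι : Type} (s : Finset ι) (a V W : ι → ℝ) {lam : ℝ} (hl : 0 < lam)
    (h : ∀ i ∈ s, 0 ≤ V i ∧ 0 ≤ W i) : ∃ t ∈ Ioo lam (2 * lam),
      lam * ∑ i ∈ s.filter (fun i => t ∈ Icc (a i) (a i + W i)), V i ≤ ∑ i ∈ s, V i * W i := by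
  let f : ℝ → ℝ := fun t => ∑ i ∈ s, (Icc (a i) (a i + W i)).indicator (fun _ => V i) t
  have h1 : ∀ i ∈ s, Integrable ((Icc (a i) (a i + W i)).indicator fun _ => V i) volume :=
    fun i _ => (integrableOn_const measure_Icc_lt_top.ne).integrable_indicator measurableSet_Icc
  have h2 : Integrable f volume := integrable_finsetSum s h1
  have h3 : ∫ t, f t = ∑ i ∈ s, V i * W i := by
    rw [integral_finsetSum s h1]
    refine Finset.sum_congr rfl fun i hi => ?_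
    rw [integral_indicator_const _ measurableSet_Icc, Real.volume_real_Icc, add_sub_cancel_left,
      max_eq_left (h i hi).2, smul_eq_mul, mul_comm]
  have h4 : ∫ t in Ioo lam (2 * lam), f t ≤ ∫ t, f t :=
    setIntegral_le_integral h2 (Eventually.of_forall fun t => Finset.sum_nonneg fun i hi =>
      indicator_nonneg (fun _ _ => (h i hi).1) t)
  obtain ⟨t, ht, h5⟩ := exists_le_setAverage (μ := volume) (s := Ioo lam (2 * lam)) (f := f)
    (by rw [Real.volume_Ioo]; exact (ENNReal.ofReal_pos.2 (by linarith)).ne')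
    measure_Ioo_lt_top.ne h2.integrableOn
  refine ⟨t, ht, ?_⟩
  rw [setAverage_eq, Real.volume_real_Ioo, show 2 * lam - lam = lam by ring, max_eq_left hl.le,
    smul_eq_mul, le_inv_mul_iff₀ hl] at h5
  refine le_trans (le_of_eq (congrArg _ ?_)) (h5.trans (h4.trans h3.le))
  rw [Finset.sum_filter]
  exact Finset.sum_congr rfl fun i _ => by rw [indicator_apply]

end Loop

theorem loop : LOOP := by
  intro E ι _ s q bq u V W D S lam ω hl hD h hq hS
  classical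
  have bdd : ∀ i ∈ s, BddBelow (u '' bq i) := fun i hi => by
    obtain ⟨x, hx⟩ := (h i hi).2.1
    refine ⟨u x - W i, ?_⟩
    rintro _ ⟨y, hy, rfl⟩
    linarith [(h i hi).2.2.2.2.2.1 x hx y hy]
  have lo : ∀ i ∈ s, ∀ x ∈ bq i, sInf (u '' bq i) ≤ u x :=
    fun i hi x hx => csInf_le (bdd i hi) (mem_image_of_mem u hx)
  have up : ∀ i ∈ s, ∀ x ∈ bq i, u x ≤ sInf (u '' bq i) + W i := fun i hi x hx => by
    refine sub_le_iff_le_add.1 (le_csInf ((h i hi).2.1.image u) ?_)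
    rintro _ ⟨y, hy, rfl⟩
    linarith [(h i hi).2.2.2.2.2.1 x hx y hy]
  obtain ⟨t, ht, h1⟩ := Loop.exists_level s (fun i => sInf (u '' bq i)) V W hl fun i hi =>
    ⟨(h i hi).2.2.2.2.1, let ⟨x, hx⟩ := (h i hi).2.1; by linarith [lo i hi x hx, up i hi x hx]⟩
  refine ⟨_, Finset.filter_subset _ s, by convert h1, fun i hi => ?_, fun Z hZ hc hZS hd => ?_⟩
  · obtain ⟨hi, hi'⟩ := Finset.mem_filter.1 hi
    obtain ⟨_, ⟨x, hx, rfl⟩, hx'⟩ := exists_lt_of_csInf_lt ((h i hi).2.1.image u)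
      (hi'.1.trans_lt ht.2)
    exact ⟨x, hx, hx'.le⟩
  have key : ∀ j ∈ s, ¬ sInf (u '' bq j) + W j < t → ∀ z ∈ Z, z ∈ bq j → t < u z :=
    fun j hj hj' z hz hz' => lt_of_lt_of_le (not_le.1 fun h' => disjoint_left.1
      (hd j (Finset.mem_filter.2 ⟨hj, h', not_lt.1 hj'⟩)) hz hz') (lo j hj z hz')
  have cl : ∀ P : ι → Prop, IsClosed (⋃ i ∈ {i | i ∈ s ∧ P i}, q i) := fun P =>
    (s.finite_toSet.subset fun _ hi => hi.1).isClosed_biUnion fun i hi => (h i hi.1).1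
  rcases isPreconnected_iff_subset_of_disjoint_closed.1 hc _ _
    (cl fun i => sInf (u '' bq i) + W i < t) (cl fun i => ¬ sInf (u '' bq i) + W i < t)
    (fun z hz => by
      obtain ⟨i, hi, hz⟩ := mem_iUnion₂.1 (hD (hZ hz))
      by_cases hi' : sInf (u '' bq i) + W i < t
      · exact Or.inl (mem_iUnion₂.2 ⟨i, ⟨hi, hi'⟩, hz⟩)
      · exact Or.inr (mem_iUnion₂.2 ⟨i, ⟨hi, hi'⟩, hz⟩))
    (eq_empty_of_forall_notMem fun z ⟨hz, h1, h2⟩ => by
      obtain ⟨i, ⟨hi, hi'⟩, h1⟩ := mem_iUnion₂.1 h1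
      obtain ⟨j, ⟨hj, hj'⟩, h2⟩ := mem_iUnion₂.1 h2
      have hne : i ≠ j := fun e => hj' (e ▸ hi')
      linarith [key j hj hj' z hz (hq j hj i hi hne.symm ⟨h2, h1⟩),
        up i hi z (hq i hi j hj hne ⟨h1, h2⟩)]) with h2 | h2
  · intro x hx
    obtain ⟨i, ⟨hi, hi'⟩, hx⟩ := mem_iUnion₂.1 (h2 hx)
    obtain ⟨y, hy⟩ := (h i hi).2.1
    linarith [(h i hi).2.2.2.2.2.2 x hx y ((h i hi).2.2.1 hy), up i hi y hy, ht.2]
  · obtain ⟨z, hz, hz'⟩ := hZS
    obtain ⟨j, ⟨hj, hj'⟩, h3⟩ := mem_iUnion₂.1 (h2 hz)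
    linarith [key j hj hj' z hz ((h j hj).2.2.2.1 ⟨hz', h3⟩), hS z hz', ht.1]

end P073.Sg
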