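import Vale.Agent.P073Y.Sg.Sk
import Vale.Agent.P073Y.St.Tgt

/-!
# Collapse of finitely many balls
-/

open Set Metric Topology Filter MeasureTheory
open scoped NNReal ENNReal

namespace P073.Sg

open P073.St.Tg (med med_self med_zero med_of_le med_sub_le med_mem image_eq_of_off)

namespace CollA

theorem pl_dist (c : E3) : PLOn (fun y : E3 => dist y c) univ := by
  have hc := A2.conicalSet_univ (E := E3)
  simpa only [dist_eq_norm] using
    A2.pl_comp_univ (A2.pl_norm_pi 3) (A2.pl_sub (A2.pl_id hc) (A2.pl_const c hc))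

/-- the room for the pushes -/
theorem exists_room {ι : Type} (s : Finset ι) (c : ι → E3) (R : ℝ) : ∃ ρ : E3 → ℝ, PLOn ρ univ ∧
    (∀ y, 0 ≤ ρ y) ∧ (∀ y y', |ρ y - ρ y'| ≤ dist y y' / 2) ∧
    (∀ y, (∀ i ∈ s, 16 * R ≤ dist y (c i)) → ρ y = 0) ∧
    ∀ i ∈ s, ∀ y, (16 * R - dist y (c i)) / 2 ≤ ρ y := by
  classical
  have hc := A2.conicalSet_univ (E := E3)
  induction s using Finset.induction_on with
  | empty => exact ⟨fun _ => 0, A2.pl_const _ hc, fun _ => le_rfl,
      fun y y' => by simpa using by positivity, fun _ _ => rfl, by simp⟩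
  | insert j s _ ih =>
    obtain ⟨ρ, h1, h2, h3, h4, h5⟩ := ih
    refine ⟨fun y => max (ρ y) (1 / 2 * (16 * R - dist y (c j))),
      A2.pl_max h1 (A2.pl_mul _ (A2.pl_sub (A2.pl_const _ hc) (pl_dist _))),
      fun y => (h2 y).trans (le_max_left _ _), fun y y' => ?_, fun y hy => ?_, fun i hi y => ?_⟩
    · refine (abs_max_sub_max_le_max _ _ _ _).trans (max_le (h3 y y') ?_)
      have := abs_le.1 (abs_dist_sub_le y y' (c j))
      exact abs_le.2 ⟨by linarith, by linarith⟩
    · show max (ρ y) _ = 0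
      rw [h4 y fun i hi => hy i (Finset.mem_insert_of_mem hi)]
      exact max_eq_left (by linarith [hy j (Finset.mem_insert_self _ _)])
    · rcases Finset.mem_insert.1 hi with rfl | hi
      · exact le_trans (by linarith) (le_max_right _ _)
      · exact (h5 i hi y).trans (le_max_left _ _)

theorem med_close {w d v b : ℝ} (hd : 0 ≤ d) (h : |v - w| ≤ b) : |med w d v - w| ≤ b :=
  (abs_sub_right_of_mem_uIcc (med_mem hd left_mem_uIcc)).trans_eq' (abs_sub_comm _ _)
    |>.trans (by rwa [abs_sub_comm])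

variable {ρ : E3 → ℝ} {b : ℝ}

/-- one push -/
theorem push (k : Fin 3) {ζ : ℝ → ℝ} (h1 : PLOn ρ univ) (h2 : ∀ y, 0 ≤ ρ y)
    (h3 : ∀ y y', |ρ y - ρ y'| ≤ dist y y' / 2) (hp : PLOn ζ univ) (hm : StrictMono ζ)
    (hl : LipschitzWith 2 ζ) (hb : ∀ t, |ζ t - t| ≤ b) :
    ∃ Φ : ConHomeo (univ : Set E3) (univ : Set E3), LipschitzWith 2 Φ.toFun ∧
      ∀ y, Φ.toFun y = Function.update y k (med (y k) (ρ y) (ζ (y k))) := by
  have hc := A2.conicalSet_univ (E := E3)
  have hg : PLOn (fun y : E3 => med (y k) (ρ y) (ζ (y k))) univ :=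
    A2.pl_max (A2.pl_sub (A2.pl_proj k hc) h1)
      (A2.pl_min (A2.pl_comp_univ hp (A2.pl_proj k hc)) (A2.pl_add (A2.pl_proj k hc) h1))
  obtain ⟨Φ, hΦ⟩ := push_thm k hg (fun x s t hst => by
      have h4 : dist (Function.update x k s) (Function.update x k t) ≤ t - s := by
        refine (dist_pi_le_iff (by linarith)).2 fun j => ?_
        by_cases hj : j = k
        · subst hj
          rw [Function.update_self, Function.update_self, Real.dist_eq, abs_sub_comm,
            abs_of_nonneg (by linarith)]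
        · rw [Function.update_of_ne hj, Function.update_of_ne hj, dist_self]
          linarith
      have h5 := abs_le.1 (h3 (Function.update x k s) (Function.update x k t))
      simp only [Function.update_self]
      exact max_lt_max (by linarith) (min_lt_min (hm hst) (by linarith)))
    fun x => by
      have h4 := fun s => abs_le.1 (med_close (h2 (Function.update x k s)) (hb s))
      refine Continuous.surjective ((continuousOn_univ.1 hg.1).comp
        (continuous_const.update k continuous_id)) ?_ ?_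
      · refine tendsto_atTop_mono (fun s => ?_) (tendsto_atTop_add_const_right _ (-b) tendsto_id)
        simp only [Function.update_self, id]
        linarith [(h4 s).1]
      · refine tendsto_atBot_mono (fun s => ?_) (tendsto_atBot_add_const_right _ b tendsto_id)
        simp only [Function.update_self, id]
        linarith [(h4 s).2]
  refine ⟨Φ, LipschitzWith.of_dist_le_mul fun y y' => ?_, hΦ⟩
  have hd := dist_nonneg (x := y) (y := y')
  have h4 : ∀ j, |y j - y' j| ≤ dist y y' := fun j => dist_le_pi_dist y y' j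
  rw [hΦ, hΦ, NNReal.coe_ofNat]
  refine (dist_pi_le_iff (by positivity)).2 fun j => ?_
  rw [Real.dist_eq]
  by_cases hj : j = k
  · subst hj
    rw [Function.update_self, Function.update_self]
    refine med_sub_le (by linarith [h4 j, h3 y y']) ?_
    have := hl.dist_le_mul (y j) (y' j)
    rw [Real.dist_eq, Real.dist_eq, NNReal.coe_ofNat] at this
    linarith [h4 j]
  · rw [Function.update_of_ne hj, Function.update_of_ne hj]
    linarith [h4 j]

/-- several pushes -/
theorem pushes {ζ : Fin 3 → ℝ → ℝ} (h1 : PLOn ρ univ) (h2 : ∀ y, 0 ≤ ρ y)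
    (h3 : ∀ y y', |ρ y - ρ y'| ≤ dist y y' / 2) (hp : ∀ k, PLOn (ζ k) univ)
    (hm : ∀ k, StrictMono (ζ k)) (hl : ∀ k, LipschitzWith 2 (ζ k)) (hb0 : 0 ≤ b)
    (hb : ∀ k t, |ζ k t - t| ≤ b) (A : Finset (Fin 3)) :
    ∃ Φ : ConHomeo (univ : Set E3) (univ : Set E3), LipschitzWith (2 ^ A.card) Φ.toFun ∧
      (∀ y, ρ y = 0 → Φ.toFun y = y) ∧ (∀ y, dist (Φ.toFun y) y ≤ b) ∧
      ∀ y k, (k ∉ A → Φ.toFun y k = y k) ∧
        (k ∈ A → ∃ y', dist y' y ≤ b ∧ Φ.toFun y k = med (y k) (ρ y') (ζ k (y k))) := by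
  induction A using Finset.induction_on with
  | empty => exact ⟨ConHomeo.refl A2.conicalSet_univ, LipschitzWith.id.weaken (by simp),
      fun _ _ => rfl, fun y => (dist_self y).trans_le hb0, fun y k => ⟨fun _ => rfl, by simp⟩⟩
  | insert j A hj ih =>
    obtain ⟨Φ, a1, a2, a3, a4⟩ := ih
    obtain ⟨P, b1, b2⟩ := push j h1 h2 h3 (hp j) (hm j) (hl j) (hb j)
    have e : ∀ y, (Φ.trans P).toFun y =
        Function.update (Φ.toFun y) j (med (y j) (ρ (Φ.toFun y)) (ζ j (y j))) := fun y => by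
      rw [← (a4 y j).1 hj]
      exact b2 _
    refine ⟨Φ.trans P, ?_, fun y hy => ?_, fun y => (dist_pi_le_iff hb0).2 fun k => ?_,
      fun y k => ⟨fun hk => ?_, fun hk => ?_⟩⟩
    · rw [Finset.card_insert_of_notMem hj, pow_succ']
      exact b1.comp a1
    · rw [e, a2 y hy, hy, med_zero, Function.update_eq_self]
    · rw [e]
      by_cases hk : k = j
      · subst hk
        rw [Function.update_self]
        exact med_close (h2 _) (hb k _)
      · rw [Function.update_of_ne hk]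
        exact (dist_le_pi_dist _ _ k).trans (a3 y)
    · rw [Finset.mem_insert, not_or] at hk
      rw [e, Function.update_of_ne hk.1, (a4 y k).1 hk.2]
    · rw [e]
      by_cases hkj : k = j
      · subst hkj
        exact ⟨_, a3 y, Function.update_self ..⟩
      · rw [Function.update_of_ne hkj]
        exact (a4 y k).2 ((Finset.mem_insert.1 hk).resolve_left hkj)

/-- composition of homeomorphisms with disjoint supports -/
theorem compose {π : Type} (Z : π → Set E3) (Φ : π → ConHomeo (univ : Set E3) (univ : Set E3))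
    (hd : ∀ n m, n ≠ m → Disjoint (Z n) (Z m)) (hoff : ∀ n y, y ∉ Z n → (Φ n).toFun y = y)
    (A : Finset π) : ∃ Ψ : ConHomeo (univ : Set E3) (univ : Set E3),
      (∀ y, (∀ n ∈ A, y ∉ Z n) → Ψ.toFun y = y) ∧
      ∀ n ∈ A, ∀ y ∈ Z n, Ψ.toFun y = (Φ n).toFun y := by
  classical
  induction A using Finset.induction_on with
  | empty => exact ⟨ConHomeo.refl A2.conicalSet_univ, fun _ _ => rfl, by simp⟩
  | insert m A hm ih =>
    obtain ⟨Ψ, a1, a2⟩ := ih
    have e : ∀ y, (Ψ.trans (Φ m)).toFun y = (Φ m).toFun (Ψ.toFun y) := fun _ => rfl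
    refine ⟨Ψ.trans (Φ m), fun y hy => ?_, fun n hn y hy => ?_⟩
    · rw [e, a1 y fun n hn => hy n (Finset.mem_insert_of_mem hn),
        hoff m y (hy m (Finset.mem_insert_self _ _))]
    · rcases Finset.mem_insert.1 hn with rfl | hn
      · rw [e, a1 y fun l hl h => disjoint_left.1 (hd l n fun h' => hm (h' ▸ hl)) h hy]
      · have h1 : (Φ n).toFun y ∈ Z n :=
          image_eq_of_off (Φ n) (hoff n) subset_rfl ▸ mem_image_of_mem _ hy
        rw [e, a2 n hn y hy, hoff m _ (disjoint_left.1 (hd n m fun h' => hm (h' ▸ hn)) h1)]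

end CollA

open CollA

theorem coll1_of (h : ZETA) : COLL1 8 := by
  intro ι s c r R hr hR
  have hs : 0 ≤ ∑ i ∈ s, r i := Finset.sum_nonneg fun i hi => (hr i hi).le
  choose J j1 j2 j3 j4 using fun k : Fin 3 => h s (fun i => c i k) r hr
  refine ⟨J, fun k => ⟨j1 k, (j2 k).trans (ENNReal.ofReal_le_ofReal (by linarith)), j3 k⟩,
    fun σ hσ => ?_⟩
  choose ζ z1 z2 z3 z4 z5 z6 using fun k => j4 k σ hσ
  obtain ⟨ρ, h1, h2, h3, h4, h5⟩ := exists_room s c R
  have hb : ∀ k t, |ζ k t - t| ≤ 4 * R := fun k t => (z5 k t).trans (by linarith)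
  obtain ⟨Φ, a1, a2, a3, a4⟩ := pushes h1 h2 h3 z1 z2 z3 (by linarith) hb Finset.univ
  refine ⟨Φ, by simpa [show (2 : ℝ≥0) ^ 3 = 8 by norm_num] using a1,
    fun y hy => a2 y (h4 y fun i hi => le_trans (by linarith) (hy i hi)), a3, fun i hi => ?_,
    fun k t ht y => ?_⟩
  · have hri : r i ≤ R := (Finset.single_le_sum (fun j hj => (hr j hj).le) hi).trans hR
    have e : ∀ y ∈ closedBall (c i) (r i), ∀ k, Φ.toFun y k = ζ k (y k) := fun y hy k => by
      obtain ⟨y', b1, b2⟩ := (a4 y k).2 (Finset.mem_univ k)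
      rw [b2]
      refine med_of_le ((hb k _).trans (le_trans ?_ (h5 i hi y')))
      linarith [dist_triangle y' y (c i), mem_closedBall.1 hy]
    have m : ∀ y ∈ closedBall (c i) (r i), ∀ k, y k ∈ Icc (c i k - r i) (c i k + r i) :=
      fun y hy k => by
        rw [← Real.closedBall_eq_Icc]
        exact (dist_le_pi_dist y (c i) k).trans hy
    refine LipschitzOnWith.of_dist_le_mul fun y hy y' hy' =>
      (dist_pi_le_iff (by positivity)).2 fun k => ?_
    rw [e y hy, e y' hy']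
    exact ((z6 k i hi).dist_le_mul _ (m y hy k) _ (m y' hy' k)).trans
      (mul_le_mul_of_nonneg_left (dist_le_pi_dist y y' k) σ.coe_nonneg)
  · obtain ⟨y', -, b2⟩ := (a4 y k).2 (Finset.mem_univ k)
    have b3 : med (y k) (ρ y') (ζ k (y k)) ∈ uIcc (ζ k (y k)) (y k) := med_mem (h2 y') left_mem_uIcc
    rw [b2]
    refine ⟨fun h0 => ?_, fun h0 => by rw [h0, z4 k t ht, med_self (h2 y')]⟩
    rw [h0] at b3
    rcases lt_trichotomy (y k) t with h6 | h6 | h6
    · exact absurd b3.2 (not_le.2 (sup_lt_iff.2 ⟨(z2 k h6).trans_eq (z4 k t ht), h6⟩))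
    · exact h6
    · exact absurd b3.1 (not_le.2 (lt_inf_iff.2 ⟨(z4 k t ht).symm.trans_lt (z2 k h6), h6⟩))

theorem coll_of (h : COLL1 8) : COLL := by
  refine ⟨19, ?_⟩
  intro ι π _ _ _ a c r R hr hR hsep
  let _ := Fintype.ofFinite π
  choose J j1 j2 using fun n => h (Finset.univ.filter fun i => a i = n) c r
    (fun i _ => hr i) (hR n)
  have mem : ∀ i, i ∈ Finset.univ.filter fun j => a j = a i := fun i => by simp
  refine ⟨J, fun n k => ⟨(j1 n k).1, (j1 n k).2.1⟩, fun i k => (j1 (a i) k).2.2 i (mem i),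
    fun σ hσ => ?_⟩
  choose Φ f1 f2 f3 f4 f5 using fun n => j2 n σ hσ
  let Z : π → Set E3 := fun n => {y | ∃ i, a i = n ∧ dist y (c i) < 20 * R n}
  have hoff : ∀ n y, y ∉ Z n → (Φ n).toFun y = y := fun n y hy =>
    f2 n y fun i hi => not_lt.1 fun h' => hy ⟨i, (Finset.mem_filter.1 hi).2, h'⟩
  obtain ⟨Ψ, a1, a2⟩ := compose Z Φ (fun n m hnm => disjoint_left.2 (by
    rintro y ⟨i, rfl, hi⟩ ⟨j, rfl, hj⟩
    linarith [hsep i j hnm, dist_triangle_left (c i) (c j) y])) hoff Finset.univ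
  have key : ∀ y y', (∀ n, y ∈ Z n → y' ∉ Z n) → dist (Ψ.toFun y) y ≤ 9 * dist y y' := by
    intro y y' hy
    by_cases h1 : ∃ n, y ∈ Z n
    · obtain ⟨n, hn⟩ := h1
      have h2 := (f1 n).dist_le_mul y y'
      rw [hoff n y' (hy n hn), NNReal.coe_ofNat] at h2
      rw [a2 n (Finset.mem_univ n) y hn]
      linarith [dist_triangle_right ((Φ n).toFun y) y y']
    · rw [a1 y fun n _ hn => h1 ⟨n, hn⟩, dist_self]
      positivity
  refine ⟨Ψ, LipschitzWith.of_dist_le_mul fun y y' => ?_, fun i => ?_, fun y => ?_⟩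
  · rw [NNReal.coe_ofNat]
    by_cases h1 : ∃ n, y ∈ Z n ∧ y' ∈ Z n
    · obtain ⟨n, h2, h3⟩ := h1
      have h4 := (f1 n).dist_le_mul y y'
      rw [NNReal.coe_ofNat] at h4
      rw [a2 n (Finset.mem_univ n) y h2, a2 n (Finset.mem_univ n) y' h3]
      linarith [dist_nonneg (x := y) (y := y')]
    · have h2 := key y y' fun n h2 h3 => h1 ⟨n, h2, h3⟩
      have h3 := key y' y fun n h3 h2 => h1 ⟨n, h2, h3⟩
      rw [dist_comm y' y, dist_comm] at h3
      linarith [dist_triangle4 (Ψ.toFun y) y y' (Ψ.toFun y')]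
  · have hri : r i ≤ R (a i) :=
      (Finset.single_le_sum (fun j _ => (hr j).le) (mem i)).trans (hR (a i))
    have e : ∀ y ∈ closedBall (c i) (r i), Ψ.toFun y = (Φ (a i)).toFun y := fun y hy =>
      a2 _ (Finset.mem_univ _) y ⟨i, rfl, by linarith [mem_closedBall.1 hy, hr i]⟩
    intro y hy y' hy'
    rw [e y hy, e y' hy']
    exact f4 (a i) i (mem i) hy hy'
  · by_cases h1 : ∃ n, y ∈ Z n
    · obtain ⟨_, i, rfl, hi⟩ := h1
      rw [a2 _ (Finset.mem_univ _) y ⟨i, rfl, hi⟩]
      exact Or.inr ⟨i, hi, f3 _ y, fun k t ht => f5 _ k t ht y⟩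
    · exact Or.inl (a1 y fun n _ hn => h1 ⟨n, hn⟩)

end P073.Sg
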