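import Vale.Agent.P073Y.Sg.Cover
import Vale.Agent.P073Y.St.Tgt

/-!
# Collapse of finitely many intervals
-/

open Set Metric Topology Filter MeasureTheory
open scoped NNReal ENNReal

namespace P073.Sg

open P073.St.Tg (clp clp_mono clp_of_le clp_of_ge clp_of_mem clp_mem pl_clp)

namespace Zt

theorem clp_sub_le (u v : ℝ) {x y : ℝ} (h : x ≤ y) : clp u v y - clp u v x ≤ y - x := by
  unfold clp
  simp only [max_def, min_def]
  split_ifs <;> linarith

/-- a contraction of the line which is constant on the given intervals -/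
theorem collapse {ι : Type} (s : Finset ι) (a b : ι → ℝ) (h : ∀ i ∈ s, a i ≤ b i) :
    ∃ π : ℝ → ℝ, PLOn π univ ∧ Monotone π ∧ (∀ x y, x ≤ y → π y - π x ≤ y - x ∧
      y - x - ∑ i ∈ s, (b i - a i) ≤ π y - π x) ∧ ∀ i ∈ s, π (a i) = π (b i) := by
  classical
  induction s using Finset.induction_on with
  | empty => exact ⟨fun x => x, A2.pl_id A2.conicalSet_univ, monotone_id,
      fun x y _ => ⟨le_rfl, by simp⟩, by simp⟩
  | insert k s hk ih =>
    obtain ⟨π, h1, h2, h3, h4⟩ := ih fun i hi => h i (Finset.mem_insert_of_mem hi)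
    have h5 := h k (Finset.mem_insert_self k s)
    refine ⟨fun x => π x - clp (π (a k)) (π (b k)) (π x),
      A2.pl_sub h1 (A2.pl_comp_univ (pl_clp _ _) h1), fun x y hxy => ?_, fun x y hxy => ?_,
      fun i hi => ?_⟩
    · linarith [clp_sub_le (π (a k)) (π (b k)) (h2 hxy)]
    · rw [Finset.sum_insert hk]
      constructor <;> linarith [clp_mono (π (a k)) (π (b k)) (h2 hxy), (h3 x y hxy).1,
        (h3 x y hxy).2, (h3 _ _ h5).1, (clp_mem (h2 h5) (π x)).1, (clp_mem (h2 h5) (π y)).2]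
    · rcases Finset.mem_insert.1 hi with rfl | hi
      · simp only [clp_of_le le_rfl, clp_of_ge (h2 h5) le_rfl, sub_self]
      · simp only [h4 i hi]

/-- the perturbation in one interval -/
theorem bump {ι : Type} (s : Finset ι) (a b : ι → ℝ) (h : ∀ i ∈ s, a i ≤ b i) {l u τ : ℝ}
    (hlu : l < u) (hs : 2 * ∑ i ∈ s, (b i - a i) ≤ u - l) (hτ : 0 ≤ τ) :
    ∃ w : ℝ → ℝ, PLOn w univ ∧ (∀ x, x ∉ Icc l u → w x = 0) ∧
      (∀ x y, x ≤ y → |w y - w x| ≤ τ * (clp l u y - clp l u x)) ∧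
      ∀ i ∈ s, ∀ x ∈ Icc (a i) (b i) ∩ Icc l u, ∀ y ∈ Icc (a i) (b i) ∩ Icc l u,
        w y - w x = -(τ * (y - x)) := by
  obtain ⟨π, h1, h2, h3, h4⟩ := collapse s a b h
  have hc := A2.conicalSet_univ (E := ℝ)
  have h5 : u - l ≤ 2 * (π u - π l) := by linarith [(h3 l u hlu.le).2]
  have h6 : 0 < π u - π l := by linarith
  have h7 : (u - l) / (π u - π l) ≤ 2 := (div_le_iff₀ h6).2 h5
  have h8 : 0 ≤ (u - l) / (π u - π l) := div_nonneg (by linarith) h6.le
  refine ⟨fun x => τ * ((u - l) / (π u - π l) * (π (clp l u x) - π l) - (clp l u x - l)),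
    A2.pl_mul _ (A2.pl_sub (A2.pl_mul _ (A2.pl_sub (A2.pl_comp_univ h1 (pl_clp _ _))
      (A2.pl_const _ hc))) (A2.pl_sub (pl_clp _ _) (A2.pl_const _ hc))), fun x hx => ?_,
    fun x y hxy => ?_, fun i hi x hx y hy => ?_⟩
  · rcases not_and_or.1 hx with hx | hx
    · simp only [clp_of_le (not_le.1 hx).le, sub_self, mul_zero]
    · simp only [clp_of_ge hlu.le (not_le.1 hx).le, div_mul_cancel₀ _ h6.ne', sub_self, mul_zero]
  · have h9 := clp_mono l u hxy
    have h10 := (h3 _ _ h9).1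
    have h11 := sub_nonneg.2 (h2 h9)
    rw [← mul_sub, abs_mul, abs_of_nonneg hτ]
    refine mul_le_mul_of_nonneg_left (abs_le.2 ⟨?_, ?_⟩) hτ
    · nlinarith [mul_nonneg h8 h11]
    · nlinarith [mul_le_mul_of_nonneg_right h7 h11]
  · have h9 : ∀ x ∈ Icc (a i) (b i), π x = π (a i) := fun x hx =>
      le_antisymm ((h2 hx.2).trans (h4 i hi).ge) (h2 hx.1)
    simp only [clp_of_mem hx.2.1 hx.2.2, clp_of_mem hy.2.1 hy.2.2, h9 x hx.1, h9 y hy.1]
    ring

theorem sum_clp {ι : Type} (t : Finset ι) (l u : ι → ℝ) (h : ∀ j ∈ t, l j ≤ u j)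
    (hd : ∀ j ∈ t, ∀ j' ∈ t, j ≠ j' → Disjoint (Icc (l j) (u j)) (Icc (l j') (u j'))) {x y : ℝ}
    (hxy : x ≤ y) : ∑ j ∈ t, (clp (l j) (u j) y - clp (l j) (u j) x) ≤ y - x := by
  have h1 : ∀ j ∈ t, Ioc (clp (l j) (u j) x) (clp (l j) (u j) y) ⊆ Icc (l j) (u j) ∩ Ioc x y := by
    intro j hj z hz
    have h2 := (clp_mem (h j hj) x).1.trans_lt hz.1
    have h3 := hz.2.trans (clp_mem (h j hj) y).2
    refine ⟨⟨h2.le, h3⟩, lt_of_not_ge fun h4 => ?_, le_of_not_gt fun h4 => ?_⟩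
    · exact hz.1.not_ge ((clp_of_mem h2.le h3).ge.trans (clp_mono _ _ h4))
    · exact (max_lt h2 ((min_le_left _ _).trans_lt h4)).not_ge hz.2
  have h2 := measure_biUnion_finset (μ := volume) (s := t)
    (f := fun j => Ioc (clp (l j) (u j) x) (clp (l j) (u j) y))
    (fun j hj j' hj' hne => (hd j hj j' hj' hne).mono ((h1 j hj).trans inter_subset_left)
      ((h1 j' hj').trans inter_subset_left)) fun _ _ => measurableSet_Ioc
  have h3 := h2.ge.trans (measure_mono
    (iUnion₂_subset fun j hj => (h1 j hj).trans inter_subset_right))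
  simp only [Real.volume_Ioc] at h3
  rwa [← ENNReal.ofReal_sum_of_nonneg fun j _ => sub_nonneg.2 (clp_mono _ _ hxy),
    ENNReal.ofReal_le_ofReal_iff (sub_nonneg.2 hxy)] at h3

theorem lip_of {f : ℝ → ℝ} {X : Set ℝ} {L : ℝ≥0}
    (h : ∀ x ∈ X, ∀ y ∈ X, x ≤ y → |f y - f x| ≤ L * (y - x)) : LipschitzOnWith L f X :=
  LipschitzOnWith.of_dist_le_mul fun x hx y hy => by
    rw [Real.dist_eq, Real.dist_eq]
    rcases le_total x y with h' | h'
    · rw [abs_sub_comm, abs_sub_comm x, abs_of_nonneg (sub_nonneg.2 h')]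
      exact h x hx y hy h'
    · rw [abs_of_nonneg (sub_nonneg.2 h')]
      exact h y hy x hx h'

end Zt

open Cv Zt

theorem zeta : ZETA := by
  classical
  intro ι s m r hr
  have hV : ∀ i ∈ s, 0 < 2 * r i := fun i hi => mul_pos two_pos (hr i hi)
  obtain ⟨a, c, h1, h2⟩ := merge s m hV
  have h3 := sum_rad s (fun i => 2 * r i) a
  have h4 : ∀ j ∈ s.image a, 0 < rad s (fun i => 2 * r i) a j := fun j => rad_pos hV
  have h5 : ∀ j, 2 * ∑ i ∈ s with a i = j, (m i + r i - (m i - r i)) ≤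
      c j + rad s (fun i => 2 * r i) a j - (c j - rad s (fun i => 2 * r i) a j) := fun j => by
    rw [Finset.sum_congr rfl fun i _ => show m i + r i - (m i - r i) = 2 * r i by ring, rad]
    linarith
  generalize rad s (fun i => 2 * r i) a = ρ at h1 h2 h3 h4 h5
  rw [← Finset.mul_sum] at h3
  have h6 : ∀ i ∈ s, Icc (m i - r i) (m i + r i) ⊆ Icc (c (a i) - ρ (a i)) (c (a i) + ρ (a i)) :=
    fun i hi => by
      rw [← Real.closedBall_eq_Icc, ← Real.closedBall_eq_Icc]
      exact (closedBall_subset_closedBall (by linarith [hr i hi])).trans (h1 i hi)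
  have h7 : ∀ j ∈ s.image a, ∀ j' ∈ s.image a, j ≠ j' →
      Disjoint (Icc (c j - ρ j) (c j + ρ j)) (Icc (c j' - ρ j') (c j' + ρ j')) :=
    fun j hj j' hj' h => by
      rw [← Real.closedBall_eq_Icc, ← Real.closedBall_eq_Icc]
      exact closedBall_disjoint_closedBall (h2 j hj j' hj' h)
  have h8 : ∀ j ∈ s.image a, c j - ρ j < c j + ρ j := fun j hj => by linarith [h4 j hj]
  have h9 : ∑ j ∈ s.image a, (c j + ρ j - (c j - ρ j)) = 4 * ∑ i ∈ s, r i := by
    rw [Finset.sum_congr rfl fun j _ => show c j + ρ j - (c j - ρ j) = 2 * ρ j by ring,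
      ← Finset.mul_sum, h3]
    ring
  refine ⟨⋃ j ∈ s.image a, Icc (c j - ρ j) (c j + ρ j),
    Finset.measurableSet_biUnion _ fun _ _ => measurableSet_Icc,
    (measure_biUnion_finset_le _ _).trans_eq ?_, fun i hi => (h6 i hi).trans
      (subset_biUnion_of_mem (u := fun j => Icc (c j - ρ j) (c j + ρ j))
        (Finset.mem_image_of_mem a hi)), fun σ hσ => ?_⟩
  · simp only [Real.volume_Icc]
    rw [← ENNReal.ofReal_sum_of_nonneg fun j hj => sub_nonneg.2 (h8 j hj).le, h9]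
  obtain ⟨τ, t0, t1, t2⟩ : ∃ τ : ℝ, 0 ≤ τ ∧ τ < 1 ∧ 1 - τ ≤ σ :=
    ⟨max 0 (1 - σ), le_max_left _ _, max_lt one_pos (sub_lt_self _ hσ),
      by linarith [le_max_right 0 (1 - σ : ℝ)]⟩
  choose! w w1 w2 w3 w4 using fun j (hj : j ∈ s.image a) =>
    bump (s.filter fun i => a i = j) (fun i => m i - r i) (fun i => m i + r i)
      (fun i hi => by linarith [hr i (Finset.mem_filter.1 hi).1]) (h8 j hj) (h5 j) t0
  have hc := A2.conicalSet_univ (E := ℝ)
  have key : ∀ x y, x ≤ y → |∑ j ∈ s.image a, w j y - ∑ j ∈ s.image a, w j x| ≤ τ * (y - x) :=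
    fun x y hxy => by
      rw [← Finset.sum_sub_distrib]
      refine (Finset.abs_sum_le_sum_abs _ _).trans
        ((Finset.sum_le_sum fun j hj => w3 j hj x y hxy).trans ?_)
      rw [← Finset.mul_sum]
      exact mul_le_mul_of_nonneg_left (sum_clp _ _ _ (fun j hj => (h8 j hj).le) h7 hxy) t0
  refine ⟨fun x => x + ∑ j ∈ s.image a, w j x, A2.pl_add (A2.pl_id hc) (A2.pl_sum _ hc w1),
    fun x y hxy => ?_, lipschitzOnWith_univ.1 (lip_of fun x _ y _ hxy => ?_), fun x hx => ?_,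
    fun x => ?_, fun i hi => lip_of fun x hx y hy hxy => ?_⟩
  · nlinarith [(abs_le.1 (key x y hxy.le)).1]
  · have := abs_le.1 (key x y hxy)
    rw [NNReal.coe_ofNat, abs_le]
    constructor <;> nlinarith [this.1, this.2]
  · exact add_eq_left.2 (Finset.sum_eq_zero fun j hj => w2 j hj x fun h => hx (mem_biUnion hj h))
  · rw [add_sub_cancel_left, ← h9]
    refine (Finset.abs_sum_le_sum_abs _ _).trans (Finset.sum_le_sum fun j hj => ?_)
    have h10 := w3 j hj (min x (c j - ρ j) - 1) x (by linarith [min_le_left x (c j - ρ j)])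
    rw [w2 j hj (_ - 1) fun h => by linarith [h.1, min_le_right x (c j - ρ j)], sub_zero] at h10
    have h11 := clp_mem (h8 j hj).le x
    have h12 := clp_mem (h8 j hj).le (min x (c j - ρ j) - 1)
    have h13 := clp_mono (c j - ρ j) (c j + ρ j)
      (show min x (c j - ρ j) - 1 ≤ x by linarith [min_le_left x (c j - ρ j)])
    nlinarith [h11.2, h12.1]
  · have hj := Finset.mem_image_of_mem a hi
    have h10 : ∀ x ∈ Icc (m i - r i) (m i + r i), ∑ j ∈ s.image a, w j x = w (a i) x :=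
      fun x hx => Finset.sum_eq_single_of_mem _ hj fun j hj' hne => w2 j hj' x
        (disjoint_right.1 (h7 j hj' _ hj hne) (h6 i hi hx))
    have h11 := w4 _ hj i (Finset.mem_filter.2 ⟨hi, rfl⟩) x ⟨hx, h6 i hi hx⟩ y ⟨hy, h6 i hi hy⟩
    rw [h10 x hx, h10 y hy, show y + w (a i) y - (x + w (a i) x) = (1 - τ) * (y - x) by linarith,
      abs_of_nonneg (mul_nonneg (by linarith) (sub_nonneg.2 hxy))]
    exact mul_le_mul_of_nonneg_right t2 (sub_nonneg.2 hxy)

end P073.Sg
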