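import Vale.Agent.P073Y.Sg.Sk
import Vale.Agent.P073Z.A12
import Vale.Agent.P073Z.A12.Arcs
import Vale.Agent.P073Z.A12.Xc
import Vale.Agent.P073Z.DISC2

/-!
# Joining a point to the boundary of a disc off a trace
-/

open Set Metric Topology Filter

namespace P073.Sg

namespace Arcj

variable {D S c c' Δ Δ' J J' : Set E3} {x : E3}

/-- the disc `Δ` is cut off by `c` -/
structure Cut (D S : Set E3) (x : E3) (c Δ J : Set E3) : Prop where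
  rep : ConBall 2 Δ J ∧ Δ ⊆ D ∧ ((c = J ∧ Disjoint J S) ∨
    ∃ p q, IsArc c p q ∧ c ⊆ J ∧ c ∩ S = {p, q} ∧ J ⊆ c ∪ S)
  con : IsConnected c
  nmem : x ∉ Δ
  nsub : ¬ S ⊆ Δ

theorem Cut.sub (h : Cut D S x c Δ J) : c ⊆ Δ := by
  obtain ⟨h1, -, h2 | ⟨p, q, -, h2, -⟩⟩ := h.rep
  exacts [h2.1.le.trans h1.1, h2.trans h1.1]

theorem Cut.repl (hD : ConBall 2 D S) (h : Cut D S x c Δ J) :
    IsPreconnected (D \ Δ) ∧ IsCompact (D \ (Δ \ c)) := by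
  have := P073.repl ({()} : Finset Unit) (fun _ => Δ) (fun _ => J) (fun _ => c) hD
    (fun _ _ => h.rep) fun _ _ _ _ h => absurd rfl h
  simp only [Finset.mem_singleton, iUnion_const] at this
  exact ⟨this.1, this.2.2.1⟩

theorem Cut.sep (hD : ConBall 2 D S) (h : Cut D S x c Δ J) {Y : Set E3} (hY : IsPreconnected Y)
    (hYD : Y ⊆ D) (hc : Disjoint Y c) : Y ⊆ Δ ∨ Disjoint Y Δ := by
  refine (isPreconnected_iff_subset_of_disjoint_closed.1 hY _ _ h.rep.1.isClosed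
    (h.repl hD).2.isClosed (fun y hy => ?_) ?_).imp id fun h1 => ?_
  · by_cases h1 : y ∈ Δ
    exacts [Or.inl h1, Or.inr ⟨hYD hy, fun h2 => h1 h2.1⟩]
  · exact eq_empty_of_forall_notMem fun y ⟨hy, h1, h2⟩ => h2.2 ⟨h1, disjoint_left.1 hc hy⟩
  · exact disjoint_left.2 fun y hy h2 => (h1 hy).2 ⟨h2, disjoint_left.1 hc hy⟩

theorem Cut.nest (hD : ConBall 2 D S) (hx : x ∈ D) (h : Cut D S x c Δ J) (h' : Cut D S x c' Δ' J')
    (hs : c' ⊆ Δ) : Δ' ⊆ Δ := by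
  rcases h'.sep hD (h.repl hD).1 sdiff_subset (disjoint_sdiff_left.mono_right hs) with h1 | h1
  · exact absurd (h1 ⟨hx, h.nmem⟩) h'.nmem
  · exact fun y hy => by_contra fun h2 => disjoint_left.1 h1 ⟨h'.rep.2.1 hy, h2⟩ hy

theorem Cut.tri (hD : ConBall 2 D S) (hx : x ∈ D) (h : Cut D S x c Δ J) (h' : Cut D S x c' Δ' J')
    (hd : Disjoint c c') : Δ' ⊆ Δ ∨ Δ ⊆ Δ' ∨ Disjoint Δ Δ' := by
  rcases h.sep hD h'.con.isPreconnected (h'.sub.trans h'.rep.2.1) hd.symm with h1 | h1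
  · exact Or.inl (h.nest hD hx h' h1)
  · exact Or.inr (h'.sep hD h.rep.1.isConnected.isPreconnected h.rep.2.1 h1.symm)

theorem exists_cut {T : Set E3} (hD : ConBall 2 D S) (hT : T ⊆ D) (hx : x ∉ T) (hc : c ⊆ T)
    (h : ∀ Δ J, ConBall 2 Δ J → Δ ⊆ D → J ⊆ T → x ∉ Δ)
    (hc' : (IsCircle c ∧ Disjoint c S) ∨ ∃ p q, IsArc c p q ∧ c ∩ S = {p, q}) :
    ∃ Δ J, Cut D S x c Δ J := by
  have hS := mod_thm.circle hD
  rcases hc' with ⟨h1, h2⟩ | ⟨p, q, h1, h2⟩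
  · obtain ⟨Δ, a1, a2, -, a3, -⟩ := cid hD h1 (hc.trans hT)
    refine ⟨Δ, c, ⟨a2, a1, Or.inl ⟨rfl, h2⟩⟩, (arcs.2.2.2.2.2.1 (p := x) h1).1, h Δ c a2 a1 hc,
      fun hs => ?_⟩
    obtain ⟨y, hy⟩ := (arcs.2.2.2.2.2.1 (p := x) hS).1.nonempty
    exact disjoint_left.1 a3 ⟨hs hy, disjoint_right.1 h2 hy⟩ hy
  · have hp : p ∈ c ∩ S := h2 ▸ Or.inl rfl
    have hq : q ∈ c ∩ S := h2 ▸ Or.inr rfl
    obtain ⟨B₁, B₂, b1, b2, b3, b4, -⟩ := arcs.2.2.1 hS hp.2 hq.2 h1.ne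
    obtain ⟨D₁, D₂, d1, d2, d3, d4, d5, d6⟩ := xc hD h1 (hc.trans hT) h2 b1 b2 b3 b4
    have key : ∀ {D' B' : Set E3}, ConBall 2 D' (c ∪ B') → D' ⊆ D → IsArc B' p q → D' ∩ S = B' →
        x ∉ D' → ∃ Δ J, Cut D S x c Δ J := fun {D' B'} k1 k2 k3 k4 k5 =>
      ⟨D', _, ⟨k1, k2, Or.inr ⟨p, q, h1, subset_union_left, h2,
        union_subset_union_right c (k4 ▸ inter_subset_right)⟩⟩, h1.isConnected, k5,
        fun hs => arcs.2.2.2.2.1 hS k3 (k4 ▸ subset_inter hs Subset.rfl)⟩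
    by_cases hx1 : x ∈ D₁
    · exact key d2 (d3 ▸ subset_union_right) b2 d6 fun hx2 => hx (hc (d4 ▸ ⟨hx1, hx2⟩))
    · exact key d1 (d3 ▸ subset_union_left) b1 d5 hx1

end Arcj

open Arcj

theorem arcj : ARCJ := by
  rintro D S _ x hD hT ⟨𝒞, rfl, hd, hc⟩ hx hxT h
  classical
  choose! Δ J H using fun c (hc' : c ∈ 𝒞) => exists_cut hD hT hxT
    (subset_biUnion_of_mem (u := fun c => c) (Finset.mem_coe.2 hc')) h (hc c hc')
  obtain ⟨s, ⟨s1, s2⟩, s3⟩ := exists_minimalFor_of_wellFoundedLT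
    (fun s : Finset (Set E3) => s ⊆ 𝒞 ∧ ∀ c ∈ 𝒞, ∃ c' ∈ s, Δ c ⊆ Δ c') Finset.card
    ⟨𝒞, Subset.rfl, fun c hc => ⟨c, hc, Subset.rfl⟩⟩
  have ns : ∀ c ∈ s, ∀ c' ∈ s, c ≠ c' → ¬ Δ c ⊆ Δ c' := fun c hc c' hc' hne hs => by
    have h1 := Finset.card_erase_lt_of_mem hc
    refine h1.not_ge (s3 ⟨(s.erase_subset c).trans s1, fun e he => ?_⟩ h1.le)
    obtain ⟨e', k1, k2⟩ := s2 e he
    by_cases k : e' = c
    · exact ⟨c', Finset.mem_erase.2 ⟨hne.symm, hc'⟩, k2.trans (k ▸ hs)⟩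
    · exact ⟨e', Finset.mem_erase.2 ⟨k, k1⟩, k2⟩
  have dj : ∀ c ∈ s, ∀ c' ∈ s, c ≠ c' → Disjoint (Δ c) (Δ c') := fun c k c' k' hne =>
    (((H c (s1 k)).tri hD hx (H c' (s1 k')) (hd c (s1 k) c' (s1 k') hne)).resolve_left
      (ns c' k' c k hne.symm)).resolve_left (ns c k c' k' hne)
  refine ⟨D \ ⋃ c ∈ s, Δ c, fun y hy => ⟨hy.1, fun h1 => ?_⟩,
    (repl s Δ J (fun c => c) hD (fun c k => (H c (s1 k)).rep) dj).1,
    ⟨hx, fun h1 => ?_⟩, by_contra fun h1 => ?_⟩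
  · obtain ⟨c, k, h1⟩ := mem_iUnion₂.1 h1
    obtain ⟨c', k1, k2⟩ := s2 c k
    exact hy.2 (mem_iUnion₂.2 ⟨c', k1, k2 ((H c k).sub h1)⟩)
  · obtain ⟨c, k, h1⟩ := mem_iUnion₂.1 h1
    exact (H c (s1 k)).nmem h1
  · have hS := (arcs.2.2.2.2.2.1 (p := x) (mod_thm.circle hD)).1
    have h2 : ∀ y ∈ S, ∃ c ∈ s, y ∈ Δ c := fun y hy => by
      by_contra h2
      exact h1 ⟨y, ⟨hD.1 hy, fun h3 =>
        let ⟨c, k, h3⟩ := mem_iUnion₂.1 h3; h2 ⟨c, k, h3⟩⟩, hy⟩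
    obtain ⟨y, hy⟩ := hS.nonempty
    obtain ⟨c, k, hyc⟩ := h2 y hy
    have h3 : Disjoint (Δ c) (⋃ c' ∈ s.erase c, Δ c') := disjoint_iUnion₂_right.2 fun c' k' =>
      dj c k c' (Finset.mem_erase.1 k').2 (Finset.mem_erase.1 k').1.symm
    rcases isPreconnected_iff_subset_of_disjoint_closed.1 hS.isPreconnected _ _
      (H c (s1 k)).rep.1.isClosed (isClosed_biUnion_finset (s := s.erase c) fun c' k' =>
        (H c' (s1 (Finset.mem_erase.1 k').2)).rep.1.isClosed)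
      (fun z hz => by
        obtain ⟨c', k', h4⟩ := h2 z hz
        by_cases e : c' = c
        · exact Or.inl (e ▸ h4)
        · exact Or.inr (mem_iUnion₂.2 ⟨c', Finset.mem_erase.2 ⟨e, k'⟩, h4⟩))
      (by rw [h3.inter_eq, inter_empty]) with h4 | h4
    · exact (H c (s1 k)).nsub h4
    · exact disjoint_left.1 h3 hyc (h4 hy)

end P073.Sg
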