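import Vale.Agent.P073Y.Sg.Sk
import Vale.Agent.P073Y.Bd.Bas
import Vale.Agent.P073Z.A12
import Vale.Agent.P073Z.A12.Arcs

/-!
# The circles of the traces of the sheets
-/

open Set Metric Topology Filter

namespace P073.Sg

open P073.Bd (Band Lev)

namespace Ci

/-- the members of a level set -/
def Mem (𝒞 : Finset (Set E3)) (T S : Set E3) : Prop := T = ⋃ c ∈ 𝒞, c ∧
  (∀ c ∈ 𝒞, ∀ c' ∈ 𝒞, c ≠ c' → Disjoint c c') ∧
  ∀ c ∈ 𝒞, (IsCircle c ∧ Disjoint c S) ∨ ∃ p q, IsArc c p q ∧ c ∩ S = {p, q}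

variable {𝒞 : Finset (Set E3)} {T S : Set E3}

theorem Mem.sub (h : Mem 𝒞 T S) {c : Set E3} (hc : c ∈ 𝒞) : c ⊆ T := by
  rw [h.1]; exact subset_biUnion_of_mem (u := fun c => c) hc

theorem Mem.ex (h : Mem 𝒞 T S) {x : E3} (hx : x ∈ T) : ∃ c ∈ 𝒞, x ∈ c := by
  rw [h.1] at hx
  simpa using hx

theorem Mem.closed (h : Mem 𝒞 T S) {c : Set E3} (hc : c ∈ 𝒞) : IsClosed c := by
  rcases h.2.2 c hc with h1 | ⟨p, q, h1, -⟩
  · exact h1.1.isCompact.isClosed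
  · exact h1.isClosed

theorem Mem.pre (h : Mem 𝒞 T S) {c : Set E3} (hc : c ∈ 𝒞) : IsPreconnected c := by
  rcases h.2.2 c hc with h1 | ⟨p, q, h1, -⟩
  · exact ((arcs (E := E3)).2.2.2.2.2.1 (p := 0) h1.1).1.isPreconnected
  · exact h1.isConnected.isPreconnected

theorem Mem.subset (h : Mem 𝒞 T S) {Z c : Set E3} (hZ : IsPreconnected Z) (hs : Z ⊆ T)
    (hc : c ∈ 𝒞) {x : E3} (hx : x ∈ Z) (hxc : x ∈ c) : Z ⊆ c := by
  classical
  have hd : ∀ y ∈ c, y ∉ ⋃ c' ∈ 𝒞.erase c, c' := fun y hy hy' => by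
    obtain ⟨c', h1, h2⟩ := mem_iUnion₂.1 hy'
    exact disjoint_left.1 (h.2.1 c hc c' (Finset.mem_of_mem_erase h1)
      (Finset.ne_of_mem_erase h1).symm) hy h2
  rcases isPreconnected_iff_subset_of_disjoint_closed.1 hZ c (⋃ c' ∈ 𝒞.erase c, c') (h.closed hc)
    (isClosed_biUnion_finset fun c' h1 => h.closed (Finset.mem_of_mem_erase h1))
    (fun y hy => by
      obtain ⟨c', h1, h2⟩ := h.ex (hs hy)
      by_cases e : c' = c
      · exact Or.inl (e ▸ h2)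
      · exact Or.inr (mem_iUnion₂.2 ⟨c', Finset.mem_erase.2 ⟨e, h1⟩, h2⟩))
    (eq_empty_of_forall_notMem fun y hy => hd y hy.2.1 hy.2.2) with h1 | h1
  · exact h1
  · exact (hd x hxc (h1 hx)).elim

theorem Mem.circle (h : Mem 𝒞 T S) {γ : Set E3} (hγ : IsCircle γ) (hs : γ ⊆ T) :
    γ ∈ 𝒞 ∧ Disjoint γ S := by
  have hc := ((arcs (E := E3)).2.2.2.2.2.1 (p := 0) hγ).1
  obtain ⟨x, hx⟩ := hc.nonempty
  obtain ⟨c, h1, h2⟩ := h.ex (hs hx)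
  have h3 := h.subset hc.isPreconnected hs h1 hx h2
  rcases h.2.2 c h1 with h4 | ⟨p, q, h4, -⟩
  · rw [(arcs (E := E3)).2.2.2.1 hγ h4.1 h3]
    exact ⟨h1, h4.2⟩
  · exact ((arcs (E := E3)).2.2.2.2.1 hγ h4 h3).elim

theorem circ_image {J X Y : Set E3} (hJ : IsCircle J) (φ : ConHomeo X Y) (h : J ⊆ X) :
    IsCircle (φ.toFun '' J) := by
  obtain ⟨ψ⟩ := hJ
  exact ⟨ψ.trans (φ.restr ψ.conicalSet_right h)⟩

theorem mem_inv {Ω Λ c : Set E3} (g : ConHomeo Ω Λ) (hc : c ⊆ Λ) {x : E3} :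
    x ∈ g.invFun '' c ↔ x ∈ Ω ∧ g.toFun x ∈ c := by
  constructor
  · rintro ⟨y, hy, rfl⟩
    exact ⟨g.mapsTo_inv (hc hy), by rwa [g.right_inv (hc hy)]⟩
  · exact fun h => ⟨_, h.2, g.left_inv h.1⟩

theorem mem_img {Ω Λ Y : Set E3} (g : ConHomeo Ω Λ) (hY : Y ⊆ Ω) {x : E3} (hx : x ∈ Ω)
    (h : g.toFun x ∈ g.toFun '' Y) : x ∈ Y := by
  obtain ⟨y, hy, e⟩ := h
  rwa [← g.injOn (hY hy) hx e]

end Ci

open Ci

theorem circ_thm : CIRC := by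
  intro Ω Λ κ ι _ _ X g b H
  classical
  have hD : ∀ k, X.D k ⊆ Ω := fun k => (X.disc k).2.trans X.sub
  have hS : ∀ k, X.S k ⊆ X.D k := fun k => (X.disc k).1.1
  have hDΛ : ∀ k, g.toFun '' X.D k ⊆ Λ := fun k => (image_mono (hD k)).trans g.mapsTo.image_subset
  have hl : ∀ i k, ∃ 𝒞, Mem 𝒞 ((b i).W ∩ g.toFun '' X.D k) (g.toFun '' X.S k) := fun i k =>
    (Bd.bas E3).lev (H.on i).1 (subset_univ _) ((X.disc k).1.image g (hD k)) (H.keep i k).1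
      (H.keep i k).2
  choose 𝒞 h𝒞 using hl
  have hW : ∀ {i j y}, y ∈ (b i).W → y ∈ (b j).W → i = j := fun {i j y} hi hj => by
    by_contra hne
    exact disjoint_left.1 (X.disj i j hne) ((H.on i).2.2 hi.1) ((H.on j).2.2 hj.1)
  have h3 : ∀ γ i k₀, IsCircle γ → γ ⊆ (b i).W ∩ g.toFun '' X.D k₀ → ∀ k,
      (γ ∩ g.toFun '' X.D k).Nonempty → k₀ = k := by
    rintro γ i k₀ hγ hs k ⟨_, hy, x, hx, rfl⟩
    by_contra hne
    exact disjoint_left.1 ((h𝒞 i k₀).circle hγ hs).2 hy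
      ⟨x, X.inter k₀ k hne ⟨mem_img g (hD k₀) (hD k hx) (hs hy).2, hx⟩, rfl⟩
  refine ⟨?_, ?_, ?_, fun k => ?_, ?_⟩
  · refine (finite_iUnion fun i => finite_iUnion fun k => (𝒞 i k).finite_toSet).subset ?_
    rintro γ ⟨hγ, i, k, hs⟩
    exact mem_iUnion₂.2 ⟨i, k, ((h𝒞 i k).circle hγ hs).1⟩
  · rintro γ ⟨hγ, i, k, hs⟩ γ' ⟨hγ', i', k', hs'⟩ hne
    refine disjoint_left.2 fun y hy hy' => ?_
    obtain rfl := hW (hs hy).1 (hs' hy').1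
    obtain rfl := h3 γ i k hγ hs k' ⟨y, hy, (hs' hy').2⟩
    exact disjoint_left.1 ((h𝒞 i k).2.1 _ ((h𝒞 i k).circle hγ hs).1 _
      ((h𝒞 i k).circle hγ' hs').1 hne) hy hy'
  · rintro γ ⟨hγ, i, k₀, hs⟩ k hk
    obtain rfl := h3 γ i k₀ hγ hs k hk
    exact ⟨fun y hy => (hs hy).2, ((h𝒞 i k₀).circle hγ hs).2⟩
  · have := Fintype.ofFinite ι
    have hΛ : ∀ i, ∀ c ∈ 𝒞 i k, c ⊆ Λ := fun i c hc y hy => hDΛ k ((h𝒞 i k).sub hc hy).2
    have hm : ∀ c, c ∈ (Finset.univ.biUnion fun i => (𝒞 i k).image fun c => g.invFun '' c) ↔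
        ∃ i, ∃ c' ∈ 𝒞 i k, g.invFun '' c' = c := fun c => by simp
    refine ⟨Finset.univ.biUnion fun i => (𝒞 i k).image fun c => g.invFun '' c, ?_, ?_, ?_⟩
    · ext x
      simp only [mem_iUnion, hm]
      constructor
      · rintro ⟨hx, i, hi⟩
        obtain ⟨c, hc, hxc⟩ := (h𝒞 i k).ex ⟨hi, x, hx, rfl⟩
        exact ⟨_, ⟨i, c, hc, rfl⟩, (mem_inv g (hΛ i c hc)).2 ⟨hD k hx, hxc⟩⟩
      · rintro ⟨_, ⟨i, c, hc, rfl⟩, hx⟩
        obtain ⟨h1, h2⟩ := (mem_inv g (hΛ i c hc)).1 hx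
        have h4 := (h𝒞 i k).sub hc h2
        exact ⟨mem_img g (hD k) h1 h4.2, i, h4.1⟩
    · intro c hc c' hc' hne
      obtain ⟨i, d, hd, rfl⟩ := (hm _).1 hc
      obtain ⟨i', d', hd', rfl⟩ := (hm _).1 hc'
      refine disjoint_left.2 fun x hx hx' => ?_
      have h1 := ((mem_inv g (hΛ i d hd)).1 hx).2
      have h2 := ((mem_inv g (hΛ i' d' hd')).1 hx').2
      obtain rfl := hW ((h𝒞 i k).sub hd h1).1 ((h𝒞 i' k).sub hd' h2).1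
      exact disjoint_left.1 ((h𝒞 i k).2.1 d hd d' hd' fun e => hne (by rw [e])) h1 h2
    · intro c hc
      obtain ⟨i, d, hd, rfl⟩ := (hm _).1 hc
      rcases (h𝒞 i k).2.2 d hd with h1 | ⟨p, q, h1, h2⟩
      · exact Or.inl ⟨circ_image h1.1 g.symm (hΛ i d hd), disjoint_left.2 fun x hx hx' =>
          disjoint_left.1 h1.2 ((mem_inv g (hΛ i d hd)).1 hx).2 ⟨x, hx', rfl⟩⟩
      · refine Or.inr ⟨_, _, h1.image g.symm (hΛ i d hd), ?_⟩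
        have hpq : ({p, q} : Set E3) ⊆ Λ := fun y hy => hΛ i d hd (h2.ge hy).1
        show g.invFun '' d ∩ X.S k = {g.invFun p, g.invFun q}
        rw [← image_pair]
        ext x
        rw [mem_inter_iff, mem_inv g (hΛ i d hd), mem_inv g hpq, ← h2]
        exact ⟨fun h => ⟨h.1.1, h.1.2, x, h.2, rfl⟩,
          fun h => ⟨⟨h.1, h.2.1⟩, mem_img g ((hS k).trans (hD k)) h.1 h.2.2⟩⟩
  · intro i k Δ J hΔ hs hJ x hx hxW
    have hJΩ : J ⊆ Ω := (hΔ.1.trans hs).trans (hD k)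
    have hxΩ := hD k (hs hx.1)
    obtain ⟨c, hc, hxc⟩ := (h𝒞 i k).ex ⟨hxW, x, hs hx.1, rfl⟩
    have hcs := (h𝒞 i k).sub hc
    have hcΛ : c ⊆ Λ := fun y hy => hDΛ k (hcs hy).2
    have hd : Disjoint c (g.toFun '' J) := by
      rcases hJ with hJ | hJ
      · exact hJ.symm.mono_left fun y hy => (hcs hy).1
      · refine (h𝒞 i k).2.1 c hc _ ((h𝒞 i k).circle (circ_image hΔ.isCircleD g hJΩ)
          (subset_inter hJ (image_mono (hΔ.1.trans hs)))).1 fun e => hx.2 ?_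
        exact mem_img g hJΩ hxΩ (e ▸ hxc)
    obtain ⟨Δ', -, -, hu, d1, d2, -⟩ := cid (X.disc k).1 hΔ.isCircleD (hΔ.1.trans hs)
    obtain rfl := hu Δ hs hΔ
    have hc0 : ∀ y ∈ g.invFun '' c, y ∈ X.D k ∧ y ∉ J := fun y hy => by
      obtain ⟨h1, h2⟩ := (mem_inv g hcΛ).1 hy
      exact ⟨mem_img g (hD k) h1 (hcs h2).2, fun h => disjoint_left.1 hd h2 ⟨y, h, rfl⟩⟩
    have hn : ∀ y ∈ g.invFun '' c, y ∈ Δ → y ∉ closure (X.D k \ Δ) := fun y hy h1 h2 => by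
      obtain ⟨u, hu1, hu2⟩ := mem_nhdsWithin_iff_exists_mem_nhds_inter.1
        (d2 y ⟨h1, (hc0 y hy).2⟩)
      obtain ⟨z, hz1, hz2⟩ := mem_closure_iff_nhds.1 h2 u hu1
      exact hz2.2 (hu2 ⟨hz1, hz2.1⟩)
    have hx0 : x ∈ g.invFun '' c := (mem_inv g hcΛ).2 ⟨hxΩ, hxc⟩
    have hsub : g.invFun '' c ⊆ Δ := by
      rcases isPreconnected_iff_subset_of_disjoint_closed.1
        (((h𝒞 i k).pre hc).image _ (g.cont_inv.mono hcΛ)) Δ (closure (X.D k \ Δ)) hΔ.isClosed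
        isClosed_closure (fun y hy => by
          by_cases e : y ∈ Δ
          · exact Or.inl e
          · exact Or.inr (subset_closure ⟨(hc0 y hy).1, e⟩))
        (eq_empty_of_forall_notMem fun y hy => hn y hy.1 hy.2.1 hy.2.2) with h1 | h1
      · exact h1
      · exact (hn x hx0 hx.1 (h1 hx0)).elim
    have hfin : c ⊆ g.toFun '' (Δ \ J) := fun y hy =>
      ⟨g.invFun y, ⟨hsub ⟨y, hy, rfl⟩, (hc0 _ ⟨y, hy, rfl⟩).2⟩, g.right_inv (hcΛ hy)⟩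
    rcases (h𝒞 i k).2.2 c hc with h1 | ⟨p, q, -, h2⟩
    · exact ⟨c, ⟨h1.1, i, k, hcs⟩, hxc, subset_inter hfin fun y hy => (hcs hy).1⟩
    · obtain ⟨h4, z, hz, e⟩ := h2.ge (mem_insert p {q})
      rw [← e] at h4
      exact (disjoint_left.1 d1 (mem_img g (fun y hy => hD k (hs hy.1)) (hD k (hS k hz))
        (hfin h4)) hz).elim

end P073.Sg
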