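import Vale.Agent.P073Y.Sg.Sk
import Vale.Agent.P073Z.A12
import Vale.Agent.P073Z.A12.Arcs
import Vale.Agent.P073Z.CosFin

/-!
# An innermost circle on a sphere
-/

open Set Metric Topology Filter

namespace P073.Sg

theorem inner : INNER := by
  intro W 𝒞 hW hf hne hc hd
  obtain ⟨γ₀, h₀⟩ := hne
  obtain ⟨D₀, D₁, d1, -, d2, -⟩ := cos_thm.1 hW (hc γ₀ h₀).1 (hc γ₀ h₀).2
  have key : ∀ n : ℕ, ∀ γ ∈ 𝒞, ∀ G, ConBall 2 G γ → G ⊆ W → {γ' ∈ 𝒞 | γ' ⊆ G}.ncard = n →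
      ∃ γ ∈ 𝒞, ∃ G, ConBall 2 G γ ∧ G ⊆ W ∧ ∀ γ' ∈ 𝒞, γ' ≠ γ → Disjoint γ' G := by
    intro n
    induction n using Nat.strong_induction_on with
    | _ n ih =>
      intro γ hγ G hG hGW hn
      by_cases H : ∀ γ' ∈ 𝒞, γ' ≠ γ → Disjoint γ' G
      · exact ⟨γ, hγ, G, hG, hGW, H⟩
      push Not at H
      obtain ⟨γ', h1, h2, h3⟩ := H
      have dj := hd γ' h1 γ hγ h2
      obtain ⟨G', g1, g2, g3⟩ : ∃ G', IsClosed G' ∧ G ∪ G' = W ∧ G ∩ G' = γ := by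
        obtain ⟨A, B, a, b, u, i, q⟩ := cos_thm.1 hW (hc γ hγ).1 (hc γ hγ).2
        rcases q G hGW hG with rfl | rfl
        · exact ⟨B, b.isClosed, u, i⟩
        · exact ⟨A, a.isClosed, union_comm A G ▸ u, inter_comm A G ▸ i⟩
      have sub : γ' ⊆ G := by
        refine (isPreconnected_iff_subset_of_disjoint_closed.1
          (A12.circle_isConnected (hc γ' h1).1).isPreconnected G G' hG.isClosed g1
          (g2 ▸ (hc γ' h1).2) (g3 ▸ dj.inter_eq)).resolve_right fun h => h3 ?_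
        exact disjoint_left.2 fun x a b => disjoint_left.1 dj a (g3 ▸ ⟨b, h a⟩)
      obtain ⟨Δ, e1, e2, -, e3, -⟩ := cid hG (hc γ' h1).1 sub
      refine ih _ (hn ▸ ncard_lt_ncard ⟨fun c h => ⟨h.1, h.2.trans e1⟩, fun h => ?_⟩
        (hf.subset (sep_subset _ _))) γ' h1 Δ e2 (e1.trans hGW) rfl
      obtain ⟨x, hx⟩ := (A12.circle_isConnected (hc γ hγ).1).nonempty
      exact disjoint_left.1 e3 ⟨(h ⟨hγ, hG.1⟩).2 hx, fun a => disjoint_left.1 dj a hx⟩ hx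
  exact key _ γ₀ h₀ D₀ d1 (d2 ▸ subset_union_left) rfl

end P073.Sg
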