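import Vale.Agent.P073Y.Sg.Sk
import Vale.Agent.P073Y.Bd.Bas
import Vale.Agent.P073Z.SCH3F

/-!
# The two sides of a disc in the boundary of a ball, and the lens on the outer side
-/

open Set Metric Topology Filter

namespace P073.Sg

open P073.Bd P073.Bd.Bas1 P073.Bd.Bas2

namespace Lens

theorem abs_sgn {ε : ℝ} (h : ε = 1 ∨ ε = -1) (s : ℝ) : |ε * s| = |s| := by
  rcases h with rfl | rfl <;> simp

theorem sgn_neg {ε : ℝ} (h : ε = 1 ∨ ε = -1) : -ε = 1 ∨ -ε = -1 := by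
  rcases h with rfl | rfl <;> simp

theorem mem_I {s a : ℝ} (h : |s| ≤ a) (ha : a ≤ 1) : s ∈ I := abs_le.1 (h.trans ha)

variable {b : Band E3} {G G₁ J T : Set E3} {h : E3 → ℝ}

/-- continuity of a section -/
theorem cont_sec (hb : b.Ok) {Z : Type} [TopologicalSpace Z] {X : Set Z} {f : Z → E3} {g : Z → ℝ}
    (hf : ContinuousOn f X) (hg : ContinuousOn g X) (h1 : ∀ z ∈ X, f z ∈ b.B)
    (h2 : ∀ z ∈ X, g z ∈ I) : ContinuousOn (fun z => b.M (f z, g z)) X :=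
  hb.Mpl.1.comp (hf.prodMk hg) fun z hz => ⟨h1 z hz, h2 z hz⟩

/-- one side lies inside or outside -/
theorem one (hb : b.Ok) (hG : ConBall 2 G J) (hW : G ⊆ b.W) (hT : ConBall 3 T (G ∪ G₁))
    (hc : ContinuousOn h G) (h1 : ∀ x ∈ G, 0 ≤ h x ∧ h x ≤ 1 ∧ (x ∉ J → 0 < h x))
    (h2 : ∀ x ∈ G \ J, ∀ s : ℝ, |s| ≤ h x → b.M (x, s) ∉ G₁) {ε : ℝ} (hε : ε = 1 ∨ ε = -1) :
    (∀ x ∈ G \ J, ∀ s, 0 < ε * s → ε * s ≤ h x → b.M (x, s) ∈ T) ∨
      ∀ x ∈ G \ J, ∀ s, 0 < ε * s → ε * s ≤ h x → b.M (x, s) ∉ T := by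
  have ha : ∀ q ∈ (G \ J) ×ˢ Ioc (0:ℝ) 1, 0 < q.2 * h q.1 ∧ |ε * (q.2 * h q.1)| ≤ h q.1 := by
    intro q hq
    have h3 := (h1 _ hq.1.1).2.2 hq.1.2
    have h4 := mul_pos hq.2.1 h3
    rw [abs_sgn hε, abs_of_pos h4]
    exact ⟨h4, mul_le_of_le_one_left h3.le hq.2.2⟩
  have hI := fun q hq => mem_I (ha q hq).2 (h1 _ hq.1.1).2.1
  have hp : IsPreconnected ((fun q : E3 × ℝ => b.M (q.1, ε * (q.2 * h q.1))) ''
      ((G \ J) ×ˢ Ioc (0:ℝ) 1)) :=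
    (hG.isConnected_int.isPreconnected.prod isPreconnected_Ioc).image _
      (cont_sec hb continuousOn_fst (continuousOn_const.mul (continuousOn_snd.mul
        (hc.comp continuousOn_fst fun _ hq => hq.1.1))) (fun _ hq => (hW hq.1.1).1) hI)
  have hm : ∀ x ∈ G \ J, ∀ s, 0 < ε * s → ε * s ≤ h x → b.M (x, s) ∈
      (fun q : E3 × ℝ => b.M (q.1, ε * (q.2 * h q.1))) '' ((G \ J) ×ˢ Ioc (0:ℝ) 1) := by
    intro x hx s s1 s2
    have h3 := s1.trans_le s2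
    refine ⟨(x, ε * s / h x), ⟨hx, div_pos s1 h3, (div_le_one h3).2 s2⟩, ?_⟩
    simp only [div_mul_cancel₀ _ h3.ne', sgn_sq hε]
  have ho := (jb.1 hT.conSphere).1
  rw [jb.2 hT] at ho
  refine (hp.subset_or_subset ho hT.isClosed.isOpen_compl
    (disjoint_compl_right.mono_left sdiff_subset) ?_).imp
    (fun h3 x hx s s1 s2 => (h3 (hm x hx s s1 s2)).1) fun h3 x hx s s1 s2 => h3 (hm x hx s s1 s2)
  rintro _ ⟨q, hq, rfl⟩
  refine or_iff_not_imp_right.2 fun h3 => ⟨not_not.1 h3, ?_⟩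
  rintro (h4 | h4)
  · have h5 := (hb.Mmem _ (hW hq.1.1).1 _ (hI q hq)).2.symm.trans (hW h4).2
    have h6 := abs_sgn hε (q.2 * h q.1)
    rw [h5, abs_zero, abs_of_pos (ha q hq).1] at h6
    exact (ha q hq).1.ne h6
  · exact h2 _ hq.1 _ (ha q hq).2 h4

/-- near an inner point of the disc all the points lie under the height function -/
theorem near (hN : COLN) (hb : b.Ok) (hG : ConBall 2 G J) (hW : G ⊆ b.W) (hc : ContinuousOn h G)
    {x₀ : E3} (hx : x₀ ∈ G \ J) (h0 : 0 < h x₀) :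
    ∀ᶠ y in 𝓝 x₀, ∃ x ∈ G \ J, ∃ s, |s| ≤ h x ∧ y = b.M (x, s) := by
  have e := M_zero hb (hW hx.1)
  have h1 := hN hb hG hW x₀ hx 0 ⟨by norm_num, by norm_num⟩
  rw [e] at h1
  have h2 : ∀ y ∈ colm b G, y ∈ b.B ∧ b.M (y, 0) ∈ G ∧ y = b.M (b.M (y, 0), b.u y) := by
    rintro _ ⟨⟨x, s⟩, ⟨q1, q2⟩, rfl⟩
    have h3 := hb.Mmem x (hW q1).1 s q2
    rw [hb.MM x (hW q1).1 s q2 0 zero_mem_I, M_zero hb (hW q1), h3.2]
    exact ⟨h3.1, q1, rfl⟩
  have h3 : ContinuousOn (fun y => b.M (y, 0)) (colm b G) :=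
    cont_sec hb continuousOn_id continuousOn_const (fun y hy => (h2 y hy).1) fun _ _ => zero_mem_I
  have h4 : ContinuousOn (fun y => h (b.M (y, 0)) - |b.u y|) (colm b G) :=
    (hc.comp h3 fun y hy => (h2 y hy).2.1).sub (hb.upl.1.mono fun y hy => (h2 y hy).1).abs
  filter_upwards [h1, (h3.continuousAt h1).eventually_mem
    (hG.isCompact_bdry.isClosed.isOpen_compl.mem_nhds (by rw [e]; exact hx.2)),
    (h4.continuousAt h1).eventually_const_lt (u := 0) (by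
      simpa only [e, (hW hx.1).2, abs_zero, sub_zero] using h0)] with y y1 y2 y3
  exact ⟨_, ⟨(h2 y y1).2.1, y2⟩, _, (sub_pos.1 y3).le, (h2 y y1).2.2⟩

end Lens

open Lens

theorem side_of (hN : COLN) : SIDE := by
  intro b G G₁ J T h hb hG hW hT hc h1 h2
  obtain ⟨x₀, hx⟩ := hG.isConnected_int.nonempty
  have hn := near hN hb hG hW hc hx ((h1 _ hx.1).2.2 hx.2)
  obtain ⟨-, j1, -, -, j2, -⟩ := jb.1 hT.conSphere
  rw [jb.2 hT] at j1 j2
  rw [union_sdiff_cancel hT.1] at j2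
  have key : ∀ A : Set E3, frontier A = G ∪ G₁ → Disjoint A G → ∃ ε : ℝ, (ε = 1 ∨ ε = -1) ∧
      ∃ x ∈ G \ J, ∃ s, 0 < ε * s ∧ ε * s ≤ h x ∧ b.M (x, s) ∈ A := by
    intro A e hd
    obtain ⟨_, y1, x, x1, s, s1, rfl⟩ := ((mem_closure_iff_frequently.1
      (frontier_subset_closure (e ▸ Or.inl hx.1 : x₀ ∈ frontier A))).and_eventually hn).exists
    rcases lt_trichotomy s 0 with s2 | rfl | s2
    · exact ⟨-1, Or.inr rfl, x, x1, s, by linarith, by linarith [neg_abs_le s], y1⟩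
    · rw [M_zero hb (hW x1.1)] at y1
      exact absurd x1.1 (disjoint_left.1 hd y1)
    · exact ⟨1, Or.inl rfl, x, x1, s, by linarith, by linarith [le_abs_self s], y1⟩
  obtain ⟨ε, hε, x, x1, s, s1, s2, s3⟩ := key _ j1 (disjoint_left.2 fun y y1 y2 => y1.2 (Or.inl y2))
  obtain ⟨δ, hδ, x', x2, s', t1, t2, t3⟩ :=
    key _ j2 (disjoint_left.2 fun y y1 y2 => y1 (hT.1 (Or.inl y2)))
  have k1 := (one hb hG hW hT hc h1 h2 hε).resolve_right fun k => k x x1 s s1 s2 s3.1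
  have k2 := (one hb hG hW hT hc h1 h2 hδ).resolve_left fun k => t3 (k x' x2 s' t1 t2)
  have e : δ = -ε := by
    by_contra e
    obtain rfl : δ = ε := by
      rcases hε with rfl | rfl <;> rcases hδ with rfl | rfl <;> simp at e ⊢
    exact k2 x x1 s s1 s2 s3.1
  subst e
  refine ⟨ε, hε, fun y hy t a1 a2 => ?_, fun y hy t a1 a2 => k2 y hy t (by linarith) ?_⟩
  · have hm : ∀ z ∈ G, 0 ≤ min (ε * t) (h z) := fun z hz => le_min a1 (h1 z hz).1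
    have h3 : ContinuousOn (fun z => b.M (z, ε * min (ε * t) (h z))) G :=
      cont_sec hb continuousOn_id (continuousOn_const.mul (continuousOn_const.inf hc))
        (fun z hz => (hW hz).1) fun z hz => sgn_mem hε
          ⟨le_trans (by norm_num) (hm z hz), (min_le_right _ _).trans (h1 z hz).2.1⟩
    have h4 := ((h3 y hy).mono (sdiff_subset (t := J))).mem_closure_image (hG.subset_closure_int hy)
    rw [min_eq_left a2, sgn_sq hε] at h4
    refine closure_minimal ?_ hT.isClosed h4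
    rintro _ ⟨z, hz, rfl⟩
    rcases (hm z hz.1).eq_or_lt with h5 | h5
    · simp only [← h5, mul_zero, M_zero hb (hW hz.1)]
      exact hT.1 (Or.inl hz.1)
    · exact k1 z hz _ (by rwa [sgn_sq hε]) (by rw [sgn_sq hε]; exact min_le_right _ _)
  · exact (le_abs_self _).trans ((abs_sgn hδ t).trans_le a2)

theorem lens_of (h1 : THINH) (h2 : LENSB) (h3 : SIDE) : LENS := by
  intro b G G₁ J T Y O hb hG hW hT hG₁ hJ hY hY' hYG hO hGO
  obtain ⟨h, hpl, hh⟩ := h1 (Y := Y ∪ G₁) hb hG hW (hY.union hG₁.isCompact) (hY'.union hG₁.locCone)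
    (by
      rw [union_inter_distrib_right, inter_comm G₁, hJ]
      exact union_subset hYG Subset.rfl) hO hGO
  have hpos : ∀ x ∈ G, x ∉ J → 0 < h x := fun x hx hn =>
    (hh x hx).1.lt_of_ne' fun e => hn ((hh x hx).2.2.1.1 e)
  obtain ⟨ε, hε, -, s2⟩ := h3 hb hG hW hT hpl.1
    (fun x hx => ⟨(hh x hx).1, (hh x hx).2.1, hpos x hx⟩)
    fun x hx s hs hm => ((hh x hx.1).2.2.2 s hs).2 hx.2 (Or.inr hm)
  obtain ⟨l1, l2, l3⟩ := h2 hb hG hW hpl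
    (fun x hx => ⟨(hh x hx).1, (hh x hx).2.1, (hh x hx).2.2.1⟩) (sgn_neg hε)
  have key : ∀ y ∈ b.M '' {q | q.1 ∈ G ∧ 0 ≤ -ε * q.2 ∧ -ε * q.2 ≤ h q.1}, ∃ x ∈ G, ∃ s,
      |s| ≤ h x ∧ y = b.M (x, s) ∧ (y = x ∨ x ∉ J ∧ ε * s < 0) := by
    rintro _ ⟨⟨x, s⟩, ⟨q1, q2, q3⟩, rfl⟩
    have e := (abs_sgn (sgn_neg hε) s).symm.trans (abs_of_nonneg q2)
    refine ⟨x, q1, s, e.trans_le q3, rfl, q2.eq_or_lt.imp (fun q => ?_) fun q =>
      ⟨fun hx => ?_, by linarith⟩⟩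
    · rw [abs_eq_zero.1 (e.trans q.symm), M_zero hb (hW q1)]
    · exact (q.trans_le q3).ne' ((hh x q1).2.2.1.2 hx)
  refine ⟨_, _, ε, hε, l1, l2, l3, Subset.antisymm (fun y hy => ?_)
    fun y hy => ⟨l1.1 (Or.inl hy), hT.1 (Or.inl hy)⟩, fun y hy => ?_, fun y hy => ?_,
    fun y hy => ?_, fun hd => ?_⟩
  · obtain ⟨x, x1, s, s1, e, rfl | x2⟩ := key y hy.1
    · exact x1
    · exact absurd (e ▸ hy.2) (s2 x ⟨x1, x2.1⟩ s x2.2 s1)
  · obtain ⟨x, x1, s, s1, e, rfl | x2⟩ := key y hy.1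
    · exact hYG ⟨hy.2, x1⟩
    · exact absurd (Or.inl (e ▸ hy.2)) (((hh x x1).2.2.2 s s1).2 x2.1)
  · obtain ⟨x, x1, s, s1, rfl, -⟩ := key y hy
    exact ((hh x x1).2.2.2 s s1).1
  · obtain ⟨x, x1, s, s1, e, rfl | x2⟩ := key y hy
    · exact Or.inl x1
    · exact Or.inr ⟨x, ⟨x1, x2.1⟩, s, mem_I s1 (hh x x1).2.1, x2.2, e⟩
  · obtain ⟨δ, hδ, t1, -⟩ := h3 (h := fun _ => 1) hb hG hW hT continuousOn_const
      (fun _ _ => ⟨zero_le_one, le_rfl, fun _ => one_pos⟩)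
      fun x hx s hs => hd x hx s (abs_le.1 hs)
    obtain rfl : δ = ε := by
      by_contra e
      obtain rfl : δ = -ε := by
        rcases hε with rfl | rfl <;> rcases hδ with rfl | rfl <;> simp at e ⊢
      obtain ⟨x, hx⟩ := hG.isConnected_int.nonempty
      have p := hpos x hx.1 hx.2
      have e := sgn_sq hδ (h x)
      exact s2 x hx (-ε * h x) (by linarith) ((abs_sgn hδ _).trans (abs_of_pos p)).le
        (t1 x hx.1 _ (p.le.trans_eq e.symm) (e.trans_le (hh x hx.1).2.1))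
    exact fun x hx s hs a => t1 x hx s a (sgn_mem hδ hs).2

end P073.Sg
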