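import Vale.Agent.P073Y.Sg.Sk
import Vale.Agent.P073Y.Bd.Bas
import Vale.Agent.P073Z.A3
import Vale.Agent.P073Z.A2
import Vale.Agent.P073Z.SCH3F

/-!
# Parts of bands, columns, thin lenses
-/

open Set Metric Topology Filter

namespace P073.Sg

open P073.Bd P073.Bd.Bas1 P073.A2
open P073.Bd.Bas2 (zero_mem_I cs_I locCone_I M_zero pl_M pl_at back M_mem_W)

variable {b : Band E3} {G J : Set E3} {ε : ℝ}

/-- the graph of a function over a part of the wall -/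
def grH (h : b.Ok) (hG : G ⊆ b.W) {f : E3 → ℝ} (hf : PLOn f G) (hI : ∀ x ∈ G, f x ∈ I) :
    ConHomeo G ((fun x => b.M (x, f x)) '' G) where
  toFun := fun x => b.M (x, f x)
  invFun := fun y => b.M (y, 0)
  mapsTo := mapsTo_image _ _
  mapsTo_inv := by
    rintro _ ⟨x, hx, rfl⟩
    show b.M (b.M (x, f x), 0) ∈ G
    rwa [h.MM x (hG hx).1 _ (hI x hx) 0 zero_mem_I, M_zero h (hG hx)]
  left_inv := fun x hx => by
    show b.M (b.M (x, f x), 0) = x
    rw [h.MM x (hG hx).1 _ (hI x hx) 0 zero_mem_I, M_zero h (hG hx)]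
  right_inv := by
    rintro _ ⟨x, hx, rfl⟩
    show b.M (b.M (b.M (x, f x), 0), f (b.M (b.M (x, f x), 0))) = b.M (x, f x)
    rw [h.MM x (hG hx).1 _ (hI x hx) 0 zero_mem_I, M_zero h (hG hx)]
  cont := (pl_M h (pl_id (pl_set hf)) hf (fun x hx => (hG hx).1) hI).1
  cont_inv := (pl_at h h.loc.conicalSet Subset.rfl zero_mem_I).1.mono (by
    rintro _ ⟨x, hx, rfl⟩
    exact (h.Mmem x (hG hx).1 _ (hI x hx)).1)
  conical := (pl_M h (pl_id (pl_set hf)) hf (fun x hx => (hG hx).1) hI).2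

theorem part_mem (hε : ε = 1 ∨ ε = -1) {s : ℝ} (hs : s ∈ I) : ε / 2 + s / 4 ∈ I := by
  rcases hε with rfl | rfl <;> constructor <;> linarith [hs.1, hs.2]

theorem part_ok (h : b.Ok) (hε : ε = 1 ∨ ε = -1) : (part b ε).Ok := by
  have e : (part b ε).B = {x ∈ b.B | b.u x ∈ Icc (ε / 2 - 1 / 4) (ε / 2 + 1 / 4)} :=
    Set.ext fun x => and_congr_right fun _ => abs_le.trans
      ⟨fun h => ⟨by linarith [h.1], by linarith [h.2]⟩, fun h => ⟨by linarith [h.1], by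
        linarith [h.2]⟩⟩
  have hc := cpt_Icc h.cpt h.loc h.upl (ε / 2 - 1 / 4) (ε / 2 + 1 / 4)
  rw [← e] at hc
  have hs : ConicalSet ((part b ε).B ×ˢ I) := conicalSet_prod hc.2.conicalSet cs_I
  refine ⟨hc.1, hc.2, pl_mono (pl_cl (pl_mul 4 (pl_sub h.upl (pl_const _ h.loc.conicalSet))))
    hc.2.conicalSet fun x hx => hx.1, ?_, fun x _ => cl_mem _, fun x hx s hs => ?_,
    fun x hx => ?_, fun x hx s hs t ht => h.MM x hx.1 _ (part_mem hε hs) _ (part_mem hε ht)⟩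
  · exact pl_M h (pl_fst hs) (pl_add (pl_const _ hs) (pl_congr (pl_mul (1 / 4) (pl_snd hs))
      fun q _ => by ring)) (fun q hq => hq.1.1) fun q hq => part_mem hε hq.2
  · obtain ⟨h1, h2⟩ := h.Mmem x hx.1 _ (part_mem hε hs)
    refine ⟨⟨h1, ?_⟩, ?_⟩
    · change |b.u (b.M (x, ε / 2 + s / 4)) - ε / 2| ≤ 1 / 4
      rw [h2, abs_le]
      constructor <;> linarith [hs.1, hs.2]
    · change cl (4 * (b.u (b.M (x, ε / 2 + s / 4)) - ε / 2)) = s
      rw [h2, show 4 * (ε / 2 + s / 4 - ε / 2) = s by ring, cl_of_mem hs]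
  · change b.M (x, ε / 2 + cl (4 * (b.u x - ε / 2)) / 4) = x
    rw [cl_of_mem ⟨by linarith [(abs_le.1 hx.2).1], by linarith [(abs_le.1 hx.2).2]⟩,
      show ε / 2 + 4 * (b.u x - ε / 2) / 4 = b.u x by ring, h.Mid x hx.1]

theorem part_thm : PART := by
  intro b ε h hε
  have hI : ε / 2 ∈ I := by simpa using part_mem hε zero_mem_I
  have e : (part b ε).W = (fun x => b.M (x, ε / 2)) '' b.W := by
    refine Subset.antisymm (fun x hx => ⟨_, M_mem_W h.ok hx.1.1, ?_⟩) ?_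
    · rw [← show b.u x = ε / 2 by linarith [cl_eq_zero.1 hx.2]]
      exact back h.ok hx.1.1 zero_mem_I
    · rintro _ ⟨x, hx, rfl⟩
      obtain ⟨h1, h2⟩ := h.ok.Mmem x hx.1 _ hI
      exact ⟨⟨h1, by rw [h2]; norm_num⟩, cl_eq_zero.2 (by rw [h2]; ring)⟩
  refine ⟨⟨part_ok h.ok hε, subset_univ _, pl_cl (pl_mul 4 (pl_sub h.upl
    (pl_const _ conicalSet_univ))), fun x hx hn => ?_⟩, e, fun ⟨φ⟩ => ?_⟩
  · have h1 : 1 / 4 < |b.u x - ε / 2| := by
      by_cases hb : x ∈ b.B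
      · exact not_le.1 fun h' => hn ⟨hb, h'⟩
      · rcases h.out x hx hb with h1 | h1 <;> rcases hε with rfl | rfl <;> rw [h1, lt_abs] <;>
          norm_num
    rcases lt_abs.1 h1 with h2 | h2
    exacts [Or.inl (cl_of_ge (by linarith)), Or.inr (cl_of_le (by linarith))]
  · rw [e]
    exact ⟨(grH h.ok Subset.rfl (pl_const _ φ.conicalSet_left) fun _ _ => hI).symm.trans φ⟩

theorem coln : COLN := by
  intro b G J h hG hW x hx s hs
  obtain ⟨Φ, h1, -⟩ := Bas2.chart h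
  have hsub : G ×ˢ I ⊆ b.W ×ˢ I := prod_mono hW Subset.rfl
  have h2 := prod_thm hG (a := -1) (b := 1) (by norm_num)
  have h3 := h2.image Φ hsub
  have hq : (x, s) ∈ G ×ˢ I := ⟨hx.1, Ioo_subset_Icc_self hs⟩
  rw [colm, ← h1, ← funext h1]
  refine mem_of_superset ((jb.2 h3 ▸ (jb.1 h3.conSphere).1).mem_nhds ⟨⟨_, hq, rfl⟩, ?_⟩)
    sdiff_subset
  rintro ⟨q, h4, h5⟩
  obtain rfl := Φ.injOn (hsub (h2.1 h4)) (hsub hq) h5
  rcases h4 with h4 | ⟨-, h4 | h4⟩
  exacts [hx.2 h4.1, hs.1.ne' h4, hs.2.ne h4]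

theorem thinh : THINH := by
  intro b G J Y O h hG hW hY hY' hJ hO hGO
  have hc : IsCompact (G ×ˢ I) := hG.isCompact.prod isCompact_Icc
  have hl : LocCone (G ×ˢ I) := A2.locCone_prod hG.locCone locCone_I
  have hM : PLOn b.M (G ×ˢ I) := pl_mono h.Mpl hl.conicalSet
    (prod_mono (fun x hx => (hW hx).1) Subset.rfl)
  have hne : J.Nonempty := by
    obtain ⟨φ⟩ := hG.conSphere
    obtain ⟨y, hy⟩ : (sphere (0 : Fin 2 → ℝ) 1).Nonempty := NormedSpace.sphere_nonempty.2 zero_le_one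
    exact ⟨_, φ.mapsTo_inv hy⟩
  have hd : PLOn (fun x => infDist x J) univ := ⟨(continuous_infDist_pt J).continuousOn,
    dist_thm hG.isCompact_bdry hG.locCone_bdry hne⟩
  have h0 : ∀ x, infDist x J ≤ 0 ↔ x ∈ J := fun x =>
    ⟨fun h1 => (hG.isCompact_bdry.isClosed.mem_iff_infDist_zero hne).2
      (h1.antisymm infDist_nonneg), fun h1 => (infDist_zero_of_mem h1).le⟩
  obtain ⟨h1, h2⟩ := cpt_pre hc hl hM hY.isClosed hY'
  obtain ⟨C, hC, h3⟩ := cmp_thm h1 h2 (pl_comp_univ hd (pl_fst h2.conicalSet))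
    (pl_abs (pl_snd h2.conicalSet)) (fun _ _ => abs_nonneg _) fun ⟨x, s⟩ hq e => by
      obtain rfl : s = 0 := abs_eq_zero.1 e
      exact (h0 x).2 (hJ ⟨M_zero h (x := x) (hW hq.1.1) ▸ hq.2, hq.1.1⟩)
  obtain ⟨η, h4, h5⟩ := (hc.of_isClosed_subset (hM.1.preimage_isClosed_of_isClosed hc.isClosed
    hO.isClosed_compl) inter_subset_left).exists_forall_le' (f := fun q => |q.2|) (a := 0)
    (by fun_prop) fun ⟨x, s⟩ hq => abs_pos.2 fun e => by
      obtain rfl : s = 0 := e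
      exact hq.2 ((M_zero h (hW hq.1.1)).symm ▸ hGO hq.1.1)
  have h6 : 0 < 1 / (2 * C) := by positivity
  refine ⟨fun x => min (min 1 (η / 2)) (1 / (2 * C) * infDist x J), pl_mono (pl_min
    (pl_const _ conicalSet_univ) (pl_mul _ hd)) hG.conicalSet (subset_univ _), fun x hx =>
    ⟨le_min (by positivity) (mul_nonneg h6.le infDist_nonneg), (min_le_left _ _).trans
      (min_le_left _ _), ⟨fun e => ?_, fun e => ?_⟩, fun s hs => ?_⟩⟩
  · refine not_not.1 fun h7 => (lt_min (by positivity) (mul_pos h6 ?_)).ne' e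
    exact not_le.1 (mt (h0 x).1 h7)
  · simp only [infDist_zero_of_mem e, mul_zero]
    exact min_eq_right (by positivity)
  · simp only [le_min_iff] at hs
    have hq : (x, s) ∈ G ×ˢ I := ⟨hx, abs_le.1 hs.1.1⟩
    refine ⟨not_not.1 fun h7 => ?_, fun h7 h8 => h7 ((h0 x).1 ?_)⟩
    · linarith [h5 (x, s) ⟨hq, h7⟩, hs.1.2]
    · have h9 := mul_le_mul_of_nonneg_left hs.2 hC.le
      rw [← mul_assoc, show C * (1 / (2 * C)) = 1 / 2 by field_simp] at h9
      linarith [h3 (x, s) ⟨hq, h8⟩]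

theorem lensb : LENSB := by
  intro b G J f ε h hG hW hf h1 hε
  obtain ⟨Φ, h2, -⟩ := Bas2.chart h
  have hI : ∀ x ∈ G, ε * f x ∈ I := fun x hx =>
    sgn_mem hε ⟨by linarith [(h1 x hx).1], (h1 x hx).2.1⟩
  have hJ : ∀ x ∈ J, b.M (x, ε * f x) = x := fun x hx => by
    rw [(h1 x (hG.1 hx)).2.2.2 hx, mul_zero, M_zero h (hW (hG.1 hx))]
  have h0 := pl_const (0 : ℝ) hG.conicalSet
  refine ⟨?_, ?_, Subset.antisymm ?_ fun x hx => ⟨hG.1 hx, x, hG.1 hx, hJ x hx⟩⟩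
  · have h3 := (twog hG (pl_min h0 (pl_mul ε hf)) (pl_max h0 (pl_mul ε hf)) (fun x hx => by
      simp [(h1 x (hG.1 hx)).2.2.2 hx]) fun x hx => min_lt_max.2 (mul_ne_zero
        (by rcases hε with rfl | rfl <;> norm_num) (mt (h1 x hx.1).2.2.1 hx.2)).symm).image Φ
      fun q hq => ⟨hW hq.1, (le_min zero_mem_I.1 (hI _ hq.1).1).trans hq.2.1,
        hq.2.2.trans (max_le zero_mem_I.2 (hI _ hq.1).2)⟩
    rw [funext h2] at h3
    convert h3 using 1
    · refine congrArg _ (Set.ext fun q => and_congr_right fun hq => ?_)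
      have h4 := (h1 _ hq).1
      rcases hε with rfl | rfl
      · rw [one_mul, one_mul, min_eq_left h4, max_eq_right h4]
      · rw [neg_one_mul, neg_one_mul, min_eq_right (neg_nonpos.2 h4),
          max_eq_left (neg_nonpos.2 h4), neg_nonneg, neg_le, and_comm]
    · have h4 : ∀ s t : ℝ, (s = min 0 t ∨ s = max 0 t) ↔ (s = 0 ∨ s = t) := fun s t => by
        rcases le_total 0 t with h | h
        · rw [min_eq_left h, max_eq_right h]
        · rw [min_eq_right h, max_eq_left h, or_comm]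
      simp only [h4]
      refine Subset.antisymm ?_ ?_
      · rintro y (hy | ⟨x, hx, rfl⟩)
        exacts [⟨(y, 0), ⟨hy, Or.inl rfl⟩, M_zero h (hW hy)⟩, ⟨(x, _), ⟨hx, Or.inr rfl⟩, rfl⟩]
      · rintro _ ⟨⟨x, s⟩, ⟨hx, rfl | (rfl : s = ε * f x)⟩, rfl⟩
        exacts [Or.inl ((M_zero h (hW hx)).symm ▸ hx), Or.inr ⟨x, hx, rfl⟩]
  · have h3 := hG.image (grH h hW (pl_mul ε hf) hI) Subset.rfl
    rwa [show (grH h hW (pl_mul ε hf) hI).toFun '' J = J from (image_congr hJ).trans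
      (image_id' J)] at h3
  · rintro _ ⟨h3, x, hx, rfl⟩
    have h4 : x ∈ J := (h1 x hx).2.2.1 ((mul_eq_zero.1 ((h.Mmem x (hW hx).1 _ (hI x hx)).2.symm.trans
      (hW h3).2)).resolve_left (by rcases hε with rfl | rfl <;> norm_num))
    show b.M (x, ε * f x) ∈ J
    rwa [hJ x h4]

end P073.Sg
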