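import Vale.Agent.P073Y.Sg.Sk
import Vale.Agent.P073Z.A12
import Vale.Agent.P073Z.SHELL
import Vale.Agent.P073Z.DISC2.Path

/-!
# The caps after a move
-/

open Set Metric Topology Filter

namespace P073.Sg

open P073.Bd (Band I cl Lev)

namespace Mcap

theorem uniq {D S J Δ Δ' : Set E3} (hD : ConBall 2 D S) (h : ConBall 2 Δ J) (h' : ConBall 2 Δ' J)
    (s : Δ ⊆ D) (s' : Δ' ⊆ D) : Δ = Δ' := by
  obtain ⟨_, -, -, hu, -⟩ := cid hD h.isCircleD (h.1.trans s)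
  exact (hu _ s h).trans (hu _ s' h').symm

/-- the disc of a circle on the wall and the disc of the parallel circle -/
theorem ann {b : Band E3} (hb : b.Ok) {D S Δ₀ J₀ : Set E3} (hD : ConBall 2 D S) (hk : b.Keeps D)
    (h0 : ConBall 2 Δ₀ J₀) (hs : Δ₀ ⊆ D) (hW : J₀ ⊆ b.W) {s : ℝ} (hsI : s ∈ I) (hs0 : s ≠ 0) :
    ∃ Δ₁ ⊆ D, ConBall 2 Δ₁ ((fun x => b.M (x, s)) '' J₀) ∧ Δ₀ ⊆ Δ₁ ∪ b.B := by
  have hJ₀ := h0.isCircleD
  have h0I : (0 : ℝ) ∈ I := ⟨by norm_num, by norm_num⟩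
  have hid : ∀ x ∈ J₀, b.M (b.M (x, s), 0) = x := fun x hx => by
    rw [hb.MM x (hW hx).1 s hsI 0 h0I, ← (hW hx).2]
    exact hb.Mid x (hW hx).1
  have m1 : MapsTo (fun x : E3 => (x, s)) J₀ (b.B ×ˢ I) := fun x hx => ⟨(hW hx).1, hsI⟩
  have c1 : ContinuousOn (fun x : E3 => (x, s)) J₀ := by fun_prop
  have hJ₁ : IsCircle ((fun x => b.M (x, s)) '' J₀) := by
    have hc := hJ₀.locCone.conicalSet
    have a1 : ContinuousOn (fun x => b.M (x, s)) J₀ := hb.Mpl.1.comp c1 m1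
    have a2 : InjOn (fun x => b.M (x, s)) J₀ := fun x hx y hy e => by
      rw [← hid x hx, ← hid y hy]
      exact congrArg (fun z => b.M (z, 0)) e
    have a3 : ConicalOn (fun x => b.M (x, s)) J₀ :=
      hb.Mpl.2.comp ((conicalOn_id hc).prodMk (conicalOn_const s hc)) m1 c1
    have := A12.circle_image hJ₀ (ConHomeo.ofCompact hJ₀.isCompact _ a1 a2 a3 rfl) Subset.rfl
    rwa [ConHomeo.ofCompact_toFun] at this
  set J₁ := (fun x => b.M (x, s)) '' J₀ with hJ₁e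
  have hJ : ∀ x ∈ J₁, x ∈ b.B ∧ b.u x = s ∧ x ∈ D := by
    rintro _ ⟨x, hx, rfl⟩
    exact ⟨(hb.Mmem x (hW hx).1 s hsI).1, (hb.Mmem x (hW hx).1 s hsI).2,
      hk x (hW hx).1 s hsI (hs (h0.1 hx))⟩
  have hI : ∀ t ∈ Icc (0 : ℝ) 1, s - s * t ∈ I := fun t ht =>
    ⟨by nlinarith [hsI.1, ht.1, ht.2], by nlinarith [hsI.2, ht.1, ht.2]⟩
  let f : E3 × ℝ → E3 := fun q => b.M (q.1, s - s * q.2)
  have m2 : MapsTo (fun q : E3 × ℝ => (q.1, s - s * q.2)) (J₁ ×ˢ Icc (0 : ℝ) 1) (b.B ×ˢ I) :=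
    fun q hq => ⟨(hJ _ hq.1).1, hI _ hq.2⟩
  have c2 : ContinuousOn (fun q : E3 × ℝ => (q.1, s - s * q.2)) (J₁ ×ˢ Icc (0 : ℝ) 1) := by
    fun_prop
  have hf : ContinuousOn f (J₁ ×ˢ Icc (0 : ℝ) 1) := hb.Mpl.1.comp c2 m2
  have hfu : ∀ q ∈ J₁ ×ˢ Icc (0 : ℝ) 1, f q ∈ b.B ∧ b.u (f q) = s - s * q.2 := fun q hq =>
    hb.Mmem _ (hJ _ hq.1).1 _ (hI _ hq.2)
  have hfD : ∀ q ∈ J₁ ×ˢ Icc (0 : ℝ) 1, f q ∈ D := fun q hq =>
    hk _ (hJ _ hq.1).1 _ (hI _ hq.2) (hJ _ hq.1).2.2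
  have hMs : ∀ x ∈ J₁, b.M (x, s) = x := fun x hx => by
    have := hb.Mid x (hJ x hx).1
    rwa [(hJ x hx).2.1] at this
  have hf0 : ∀ x ∈ J₁, f (x, 0) = x := fun x hx => by
    simp only [f, mul_zero, sub_zero]
    exact hMs x hx
  have hf1 : f '' (J₁ ×ˢ {1}) = J₀ := by
    ext y
    constructor
    · rintro ⟨⟨_, _⟩, ⟨⟨x, hx, rfl⟩, rfl⟩, rfl⟩
      simp only [f, mul_one, sub_self]
      rwa [hid x hx]
    · intro hy
      refine ⟨(b.M (y, s), 1), ⟨⟨y, hy, rfl⟩, rfl⟩, ?_⟩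
      simp only [f, mul_one, sub_self]
      exact hid y hy
  have hinj : InjOn f (J₁ ×ˢ Icc (0 : ℝ) 1) := fun q hq q' hq' e => by
    have a1 := (hfu q hq).2
    rw [e, (hfu q' hq').2] at a1
    have a2 : ∀ q ∈ J₁ ×ˢ Icc (0 : ℝ) 1, b.M (f q, s) = q.1 := fun q hq =>
      (hb.MM _ (hJ _ hq.1).1 _ (hI _ hq.2) s hsI).trans (hMs _ hq.1)
    refine Prod.ext (by rw [← a2 q hq, ← a2 q' hq', e]) (mul_left_cancel₀ hs0 (by linarith))
  have hcs : ConicalSet (J₁ ×ˢ Icc (0 : ℝ) 1) :=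
    Sh.conicalSet_prod hJ₁.locCone.conicalSet (locCone_Icc 0 1).conicalSet
  have hcon : ConicalOn f (J₁ ×ˢ Icc (0 : ℝ) 1) :=
    hb.Mpl.2.comp ((conicalOn_linear (LinearMap.fst ℝ E3 ℝ) hcs).prodMk
      ((conicalOn_const s hcs).sub
        ((conicalOn_linear (LinearMap.snd ℝ E3 ℝ) hcs).const_smul s))) m2 c2
  obtain ⟨Δ₁, s1, h1, -, -, hn, -⟩ := cid hD hJ₁ fun x hx => (hJ x hx).2.2
  refine ⟨Δ₁, s1, h1, ?_⟩
  have hsub : J₁ ×ˢ Ioc (0 : ℝ) 1 ⊆ J₁ ×ˢ Icc (0 : ℝ) 1 := prod_mono Subset.rfl Ioc_subset_Icc_self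
  have hpc : IsPreconnected (f '' (J₁ ×ˢ Ioc (0 : ℝ) 1)) :=
    ((A12.circle_isConnected hJ₁).isPreconnected.prod isPreconnected_Ioc).image f (hf.mono hsub)
  have hdis : ∀ y ∈ f '' (J₁ ×ˢ Ioc (0 : ℝ) 1), y ∈ Δ₁ → y ∉ closure (D \ Δ₁) := by
    rintro _ ⟨q, hq, rfl⟩ a1 a2
    have a3 : f q ∉ J₁ := fun a3 => by
      have a4 := (hfu q (hsub hq)).2
      rw [(hJ _ a3).2.1] at a4
      exact mul_ne_zero hs0 hq.2.1.ne' (by linarith)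
    obtain ⟨O, hO, a5⟩ := mem_nhdsWithin_iff_exists_mem_nhds_inter.1 (hn _ ⟨a1, a3⟩)
    obtain ⟨z, z1, z2⟩ := mem_closure_iff_nhds.1 a2 O hO
    exact z2.2 (a5 ⟨z1, z2.1⟩)
  rcases isPreconnected_iff_subset_of_disjoint_closed.1 hpc Δ₁ (closure (D \ Δ₁)) h1.isClosed
    isClosed_closure (by
      rintro _ ⟨q, hq, rfl⟩
      by_cases a1 : f q ∈ Δ₁
      exacts [Or.inl a1, Or.inr (subset_closure ⟨hfD q (hsub hq), a1⟩)])
    (eq_empty_of_forall_notMem fun y hy => hdis y hy.1 hy.2.1 hy.2.2) with h | h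
  · have a1 : J₀ ⊆ Δ₁ := by
      rw [← hf1]
      refine (image_mono (Set.prod_mono Subset.rfl ?_)).trans h
      exact singleton_subset_iff.2 ⟨one_pos, le_rfl⟩
    obtain ⟨Δ', s', h', -⟩ := cid h1 hJ₀ a1
    rw [uniq hD h0 h' hs (s'.trans s1)]
    exact s'.trans subset_union_left
  · have a1 := colo (ConHomeo.ofCompact (hJ₁.isCompact.prod isCompact_Icc) f hf hinj hcon rfl) h1
      (by rw [ConHomeo.ofCompact_toFun]; exact hf0) (by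
        rintro _ ⟨⟨⟨x, t⟩, hq, rfl⟩, a2⟩
        rcases eq_or_lt_of_le hq.2.1 with a3 | a3
        · obtain rfl : 0 = t := a3
          rw [hf0 x hq.1]
          exact hq.1
        · have a4 : f (x, t) ∈ f '' (J₁ ×ˢ Ioc (0 : ℝ) 1) := ⟨_, ⟨hq.1, a3, hq.2.2⟩, rfl⟩
          exact absurd (h a4) (hdis _ a4 a2))
    rw [ConHomeo.ofCompact_toFun, hf1] at a1
    rw [uniq hD h0 a1 hs (union_subset s1 (image_subset_iff.2 hfD))]
    exact union_subset_union_right _ (image_subset_iff.2 fun q hq => (hfu q hq).1)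

variable {Ω Λ : Set E3} {κ ι : Type} [Finite κ] [Finite ι] {X : Dat Ω Λ κ ι}
  {g : ConHomeo Ω Λ} {g' : E3 → E3} {b : ι → Band E3} {i : ι} {k : κ} {J Δ G T : Set E3} {ε : ℝ}

/-- a disc whose boundary is off the sphere and in the ball lies in the ball -/
theorem key (hC : CIRC) (hS : Sta X g.toFun b) (hM : Mv X g.toFun b i k J Δ G T ε g') {l : κ}
    {Δ₁ J₁ : Set E3} (h1 : ConBall 2 Δ₁ J₁) (s1 : Δ₁ ⊆ X.D l)
    (hW : Disjoint (g.toFun '' J₁) (b i).W) (hT : g.toFun '' J₁ ⊆ T) : g.toFun '' Δ₁ ⊆ T := by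
  have hΩ : ∀ l, X.D l ⊆ Ω := fun l => (X.disc l).2.trans X.sub
  have hJΩ : J ⊆ Ω := fun x hx => hΩ k (hM.disc.2 (hM.disc.1.1 hx)).1
  obtain ⟨p, hp⟩ := (A12.circle_isConnected h1.isCircleD).nonempty
  have hdi : ∀ c ⊆ Δ₁, IsPreconnected c → p ∈ c → (∀ x ∈ c, g.toFun x ∉ G) →
      g.toFun '' c ⊆ T := fun c hc hpc hpm hG =>
    (hM.dich c (hc.trans (s1.trans (X.disc l).2)) hpc
      (disjoint_left.2 (by rintro _ ⟨x, hx, rfl⟩; exact hG x hx))).resolve_right fun h =>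
        disjoint_left.1 h (mem_image_of_mem _ hpm) (hT (mem_image_of_mem _ hp))
  have hG : ∀ x ∈ Δ₁, g.toFun x ∈ G → x ∈ J ∧ J ⊆ Δ₁ \ J₁ := fun x hx hG => by
    have a1 := hM.cap.2 hG
    obtain ⟨γ, hγ, a2, a3⟩ := (hC X g b hS).2.2.2.2 i l Δ₁ J₁ h1 s1 (Or.inl hW) x
      ⟨hx, fun h => disjoint_left.1 hW (mem_image_of_mem _ h) a1⟩ a1
    obtain rfl : γ = g.toFun '' J := by_contra fun h => disjoint_left.1 (hM.inner γ hγ h) a2 hG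
    exact ⟨(g.memImgD hJΩ (hΩ l (s1 hx))).1 a2, fun y hy =>
      (g.memImgD (sdiff_subset.trans (s1.trans (hΩ l))) (hJΩ hy)).1 (a3 (mem_image_of_mem _ hy)).1⟩
  by_cases h : ∃ x ∈ Δ₁, g.toFun x ∈ G
  · obtain ⟨x, hx, hxG⟩ := h
    obtain ⟨a1, a2⟩ := hG x hx hxG
    obtain rfl : k = l := by_contra fun h =>
      (hM.disc.2 (hM.disc.1.1 a1)).2 (X.inter k l h ⟨(hM.disc.2 (hM.disc.1.1 a1)).1, s1 hx⟩)
    obtain ⟨Δ', s', h', -, d1, -, -, d2⟩ := cid h1 hM.disc.1.isCircleD (a2.trans sdiff_subset)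
    obtain rfl : Δ = Δ' :=
      uniq (X.disc k).1 hM.disc.1 h' (hM.disc.2.trans sdiff_subset) (s'.trans s1)
    have a3 := hdi (Δ₁ \ Δ) sdiff_subset (d2 (disjoint_left.2 fun y hy => (a2 hy).2))
      ⟨h1.1 hp, fun h => by
        by_cases hJ : p ∈ J
        exacts [(a2 hJ).2 hp, disjoint_left.1 d1 ⟨h, hJ⟩ hp]⟩
      fun y hy hyG => hy.2 (h'.1 (hG y hy.1 hyG).1)
    rintro _ ⟨y, hy, rfl⟩
    by_cases hyΔ : y ∈ Δ
    exacts [hM.mem (mem_image_of_mem _ hyΔ), a3 (mem_image_of_mem _ ⟨hy, hyΔ⟩)]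
  · exact hdi Δ₁ Subset.rfl h1.isConnected.isPreconnected (h1.1 hp) fun x hx hG => h ⟨x, hx, hG⟩

end Mcap

open Mcap in
/-- the caps after a move -/
theorem mcap_of (hP : PART) (hC : CIRC) : MCAP := by
  classical
  rintro Ω Λ κ ι _ _ X g g' b i k J Δ G T ε hS hM Δ₀ ⟨j, l, J₀, h0, s0, hW⟩
  have hΩ : X.D l ⊆ Ω := (X.disc l).2.trans X.sub
  have hU := (hS.on i).2.2
  have hmv : ∀ x ∈ X.D l, g.toFun x ∈ T ∨ g.toFun x ∈ (b i).B → g'.toFun x ∈ X.U i := by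
    intro x hx h
    rcases hM.mov x ((X.disc l).2 hx) with h1 | h1
    · exact hU (h1.1 ▸ h.resolve_left h1.2)
    · exact hU h1.2.1
  have hdi : ∀ {Δ₁ J₁ : Set E3}, ConBall 2 Δ₁ J₁ → Δ₁ ⊆ X.D l →
      (∀ x ∈ J₁, g.toFun x ∈ (b i).B → 0 < ε * (b i).u (g.toFun x)) →
      g.toFun '' Δ₁ ⊆ T ∨ g'.toFun '' J₁ = g.toFun '' J₁ := by
    intro Δ₁ J₁ h1 s1 h
    have hd : Disjoint (g.toFun '' J₁) (b i).W := disjoint_left.2 (by
      rintro _ ⟨x, hx, rfl⟩ hw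
      have := h x hx hw.1
      rw [hw.2, mul_zero] at this
      exact lt_irrefl _ this)
    have hP : J₁ ⊆ X.Pr := h1.1.trans (s1.trans (X.disc l).2)
    refine (hM.dich J₁ hP (A12.circle_isConnected h1.isCircleD).isPreconnected
      (hd.mono_right hM.cap.2)).imp (key hC hS hM h1 s1 hd) fun hT => image_congr fun x hx => ?_
    rcases hM.mov x (hP hx) with h2 | ⟨h2 | h2, -⟩
    · exact h2.1
    · exact absurd h2 (disjoint_left.1 hT (mem_image_of_mem _ hx))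
    · exact absurd (h x hx h2.1) (not_lt.2 h2.2)
  by_cases hji : j = i
  · subst hji
    have hε : ε / 2 ∈ I ∧ ε / 2 ≠ 0 ∧ 0 < ε * (ε / 2) := by
      rcases hM.sgn with rfl | rfl <;> norm_num
    have hΛ : g.toFun '' X.D l ⊆ Λ := g.imgSubD hΩ
    obtain ⟨Δ₁, s1, h1, h2⟩ := ann (hS.on j).1.ok ((X.disc l).1.image g hΩ) (hS.keep j l).1
      (h0.image g (s0.trans hΩ)) (image_mono s0) hW hε.1 hε.2.1
    have e1 := g.imgInvD (h1.1.trans (s1.trans hΛ))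
    have s2 : g.invFun '' Δ₁ ⊆ X.D l := (image_mono s1).trans (g.invImgD hΩ).le
    have h3 : ∀ x ∈ Δ₀, x ∈ g.invFun '' Δ₁ ∨ g.toFun x ∈ (b j).B := fun x hx =>
      (h2 (mem_image_of_mem _ hx)).imp_left fun h => ⟨_, h, g.left_inv (hΩ (s0 hx))⟩
    have h4 := h1.image g.symm (s1.trans hΛ)
    rcases hdi h4 s2 (fun x hx _ => by
      obtain ⟨y, hy, e⟩ := e1 ▸ mem_image_of_mem g.toFun hx
      rw [← e, ((hS.on j).1.ok.Mmem y (hW hy).1 _ hε.1).2]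
      exact hε.2.2) with h | h
    · exact Or.inl fun x hx => hmv x (s0 hx)
        ((h3 x hx).imp_left fun h' => h (mem_image_of_mem _ h'))
    · refine Or.inr ⟨_, ⟨j, l, _, h4, s2, ?_⟩, fun x hx => (h3 x hx).imp_right fun h' => hU h'⟩
      rw [h, Function.update_self, (hP (hS.on j).1 hM.sgn).2.1]
      exact e1.le.trans (image_mono hW)
  · rcases hdi h0 s0 (fun x hx h => absurd (hU h) (disjoint_left.1 (X.disj j i hji)
      ((hS.on j).2.2 (hW (mem_image_of_mem _ hx)).1))) with h | h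
    · exact Or.inl fun x hx => hmv x (s0 hx) (Or.inl (h (mem_image_of_mem _ hx)))
    · refine Or.inr ⟨Δ₀, ⟨j, l, J₀, h0, s0, ?_⟩, fun x hx => Or.inl hx⟩
      rw [h, Function.update_of_ne hji]
      exact hW

end P073.Sg
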