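import Vale.Agent.P073Y.Sg.Sk
import Vale.Agent.P073Y.Bd.Bas
import Vale.Agent.P073Y.Bd.Map
import Vale.Agent.P073Y.St.Tgt
import Vale.Agent.P073Z.A12
import Vale.Agent.P073Z.CosFin
import Vale.Agent.P073Z.SCH3F
import Vale.Agent.P073Z.Ax.All

/-!
# The move of the surgery
-/

open Set Metric Topology Filter

namespace P073.Sg

open P073.Bd (Band I)
open P073.Bd.Bas2 (zero_mem_I M_zero W_sub keeps_iff)

namespace Mov

theorem clopen {Z A : Set E3} (hZ : IsPreconnected Z) (hA : IsClosed A)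
    (h : ∀ x ∈ Z, x ∈ A → A ∈ 𝓝[Z] x) : Z ⊆ A ∨ Disjoint Z A := by
  by_contra hc
  obtain ⟨h1, h2⟩ := not_or.1 hc
  obtain ⟨x, hx, hxA⟩ := not_subset.1 h1
  obtain ⟨y, hy, hyA⟩ := not_disjoint_iff.1 h2
  have k : ∀ z ∈ Z, z ∈ A → z ∈ interior {w | w ∈ Z → w ∈ A} := fun z hz hzA =>
    mem_interior_iff_mem_nhds.2 (eventually_nhdsWithin_iff.1 (h z hz hzA))
  obtain ⟨z, hz, h3, h4⟩ := hZ _ _ isOpen_interior hA.isOpen_compl
    (fun z hz => (em (z ∈ A)).imp (k z hz) id) ⟨y, hy, k y hy hyA⟩ ⟨x, hx, hxA⟩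
  exact h4 (interior_subset h3 hz)

/-- the move in the target -/
theorem core (hL : LENS) (hA : ABSORB) (hN : COLN) {b c : Band E3} {G δ γ O P D : Set E3}
    (hb : b.Ok) (hc : c.Ok) (hG : ConBall 2 G γ) (hδ : ConBall 2 δ γ) (hGb : G ⊆ b.W)
    (hδc : δ ⊆ c.W) (hi : G ∩ δ = γ) (hO : IsOpen O) (hcv : Convex ℝ O) (hGO : G ⊆ O)
    (hδO : δ ⊆ O) (hf : ∀ y ∈ δ, ∀ s ∈ I, c.M (y, s) ∈ P → s = 0) (hk : b.Keeps D)
    (hδD : δ ⊆ D) (hDP : D ⊆ P) :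
    ∃ (T : Set E3) (ε : ℝ) (H : ConHomeo (univ : Set E3) (univ : Set E3)), δ ⊆ T ∧
      (∀ Z ⊆ P, IsPreconnected Z → Disjoint Z G → Z ⊆ T ∨ Disjoint Z T) ∧ (ε = 1 ∨ ε = -1) ∧
      (∀ y ∈ G, ∀ s ∈ I, 0 ≤ ε * s → b.M (y, s) ∈ T) ∧ (∀ y, y ∉ O → H.toFun y = y) ∧
      ∀ y ∈ P, (H.toFun y = y ∧ y ∉ T) ∨ ((y ∈ T ∨ y ∈ b.B ∧ ε * b.u y ≤ 0) ∧
        H.toFun y ∈ b.B ∧ ε * b.u (H.toFun y) ≤ 0) := by
  have hS : ConSphere 2 (G ∪ δ) := cos_thm.2.1 hG hδ hi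
  have hT := Ax.alex hS
  obtain ⟨ho, -, -, -, -, -, hh⟩ := jb.1 hS
  set T := G ∪ δ ∪ Inside (G ∪ δ) with hTe
  have hSO : G ∪ δ ⊆ O := union_subset hGO hδO
  have hTO : T ⊆ O := union_subset hSO (hh.trans (convexHull_min hSO hcv))
  have hδT : δ ⊆ T := subset_union_right.trans subset_union_left
  have hf' : ∀ y ∈ δ, ∀ s ∈ I, c.M (y, s) ∈ P → c.M (y, s) ∈ δ := fun y hy s hs h => by
    rw [hf y hy s hs h, M_zero hc (hδc hy)]
    exact hy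
  have hn : ∀ y ∈ δ \ γ, ∀ Z ⊆ P, δ ∈ 𝓝[Z] y := fun y hy Z hZ => by
    have h1 := hN hc hδ hδc y hy 0 ⟨by norm_num, by norm_num⟩
    rw [M_zero hc (hδc hy.1)] at h1
    refine mem_of_superset (inter_mem_nhdsWithin Z h1) ?_
    rintro _ ⟨hz, q, hq, rfl⟩
    exact hf' q.1 hq.1 q.2 hq.2 (hZ hz)
  obtain ⟨C, G', ε, hε, hC, hG', hGG', hCT, -, hCO, hCm, hcol⟩ := hL hb hG hGb hT hδ hi
    isCompact_empty locCone_empty (by simp) hO hGO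
  have hside := hcol fun x hx s hs hm => by
    have hxB := W_sub b (hGb hx.1)
    have hxD : x ∈ D := (keeps_iff hb hk hxB hs).1 (hδD hm)
    have hZ : (fun t : ℝ => b.M (x, t)) '' I ⊆ P := by
      rintro _ ⟨t, ht, rfl⟩
      exact hDP (hk x hxB t ht hxD)
    rcases clopen (isPreconnected_Icc.image _ (Bd.Bas1.cont_fibre hb hxB)) hδ.isClosed
      (fun y hy hyδ => hn y ⟨hyδ, fun hγ => by
        obtain ⟨t, ht, rfl⟩ := hy
        have h0 : t = 0 := (hb.Mmem x hxB t ht).2.symm.trans (hGb (hG.1 hγ)).2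
        rw [h0] at hγ
        exact hx.2 (M_zero hb (hGb hx.1) ▸ hγ)⟩ _ hZ) with h | h
    · have h1 := h ⟨0, zero_mem_I, rfl⟩
      simp only [M_zero hb (hGb hx.1)] at h1
      exact hx.2 (hi ▸ ⟨hx.1, h1⟩)
    · exact disjoint_left.1 h ⟨s, hs, rfl⟩ hm
  have hi' : δ ∩ G = γ := by rw [inter_comm, hi]
  have hT' : ConBall 3 T (δ ∪ G) := by rwa [union_comm δ]
  obtain ⟨C', G'', ε', -, hC', hG'', hδG'', hC'T, hC'C, hC'O, hC'm, -⟩ := hL hc hδ hδc hT' hG hi'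
    hC.isCompact hC.locCone
    (fun y hy => hi ▸ ⟨hCT ▸ (⟨hy.1, hδT hy.2⟩ : y ∈ C ∩ T), hy.2⟩) hO hδO
  obtain ⟨H, hH, hm⟩ := hA hC' hT' hC hG'' hδ hG hG' hδG'' hi' hGG' hC'T hCT hC'C
  have hCs : ∀ y ∈ C, y ∈ b.B ∧ ε * b.u y ≤ 0 := fun y hy => by
    rcases hCm y hy with h | ⟨x, hx, s, hs, h, rfl⟩
    · exact ⟨W_sub b (hGb h), by rw [(hGb h).2, mul_zero]⟩
    · have h1 := hb.Mmem x (W_sub b (hGb hx.1)) s hs
      exact ⟨h1.1, by rw [h1.2]; exact h.le⟩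
  refine ⟨T, ε, H, hδT, fun Z hZ hp hd => clopen hp hT.isClosed fun y hy hyT => ?_, hε, hside,
    fun y hy => hH y fun h => hy (union_subset (union_subset hC'O hTO) hCO h), fun y hy => ?_⟩
  · rcases hyT with (h | h) | h
    · exact absurd h (disjoint_left.1 hd hy)
    · exact mem_of_superset (hn y ⟨h, fun hγ => disjoint_left.1 hd hy (hG.1 hγ)⟩ Z hZ) hδT
    · exact mem_nhdsWithin_of_mem_nhds (mem_of_superset (ho.mem_nhds h) subset_union_right)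
  · by_cases h : y ∈ T ∪ C
    · exact Or.inr ⟨h.imp id (hCs y), hCs _ (hm h)⟩
    · refine Or.inl ⟨hH y ?_, fun h' => h (Or.inl h')⟩
      rintro ((h' | h') | h')
      · rcases hC'm y h' with h1 | ⟨x, hx, s, hs, -, rfl⟩
        · exact h (Or.inl (hδT h1))
        · exact h (Or.inl (hδT (hf' x hx.1 s hs hy)))
      · exact h (Or.inl h')
      · exact h (Or.inr h')

end Mov

open Mov in
theorem mov_of (hC : CIRC) (hI : INNER) (hL : LENS) (hA : ABSORB) (hN : COLN) : MOV := by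
  intro Ω Λ κ ι _ _ X g b st hne
  obtain ⟨γ₀, h₀, i, k₀, h₀'⟩ := hne
  obtain ⟨c1, c2, c3, -, c5⟩ := hC X g b st
  obtain ⟨γ, ⟨hγ, hγW⟩, G, hG, hGW, hin⟩ := hI (𝒞 := {γ ∈ circ X g.toFun b | γ ⊆ (b i).W})
    (st.on i).2.1 (c1.subset fun _ h => h.1)
    ⟨γ₀, ⟨h₀, i, k₀, h₀'⟩, h₀'.trans inter_subset_left⟩ (fun γ h => ⟨h.1.1, h.2⟩)
    fun γ h γ' h' => c2 γ h.1 γ' h'.1
  have hWU : ∀ j, (b j).W ⊆ X.U j := fun j => (W_sub _).trans (st.on j).2.2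
  have hin' : ∀ γ' ∈ circ X g.toFun b, γ' ≠ γ → Disjoint γ' G := fun γ' h' hn => by
    obtain ⟨j, l, hj⟩ := h'.2
    by_cases e : j = i
    · exact hin γ' ⟨h', e ▸ hj.trans inter_subset_left⟩ hn
    · exact (X.disj j i e).mono ((hj.trans inter_subset_left).trans (hWU j)) (hGW.trans (hWU i))
  obtain ⟨hγc, j, k, hγk⟩ := id hγ
  have hγD : γ ⊆ g.toFun '' X.D k := hγk.trans inter_subset_right
  obtain ⟨y₀, hy₀⟩ := (A12.circle_isConnected hγc).nonempty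
  have hγS := (c3 γ hγ k ⟨y₀, hy₀, hγD hy₀⟩).2
  have hDΩ : X.D k ⊆ Ω := (X.disc k).2.trans X.sub
  have hγΛ : γ ⊆ Λ := hγD.trans (g.imgSubD hDΩ)
  have hJ : g.toFun '' (g.invFun '' γ) = γ := g.imgInvD hγΛ
  have hJD : g.invFun '' γ ⊆ X.D k := (image_mono hγD).trans (g.invImgD hDΩ).le
  obtain ⟨Δ, hΔD, hΔ, -, hΔS, -⟩ := cid (X.disc k).1 (A12.circle_image hγc g.symm hγΛ) hJD
  change ConBall 2 Δ (g.invFun '' γ) at hΔ
  change Disjoint (Δ \ g.invFun '' γ) (X.S k) at hΔS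
  have hΔ' : Δ ⊆ X.D k \ X.S k := fun x hx => ⟨hΔD hx, fun hS => by
    by_cases h : x ∈ g.invFun '' γ
    · exact disjoint_left.1 hγS (hJ ▸ mem_image_of_mem _ h) (mem_image_of_mem _ hS)
    · exact disjoint_left.1 hΔS ⟨hx, h⟩ hS⟩
  have hδ : ConBall 2 (g.toFun '' Δ) γ := hJ ▸ hΔ.image g (hΔD.trans hDΩ)
  have hi : G ∩ g.toFun '' Δ = γ := by
    refine Subset.antisymm ?_ (subset_inter hG.1 hδ.1)
    rintro _ ⟨hy, x, hx, rfl⟩
    by_contra h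
    obtain ⟨γ', h1, h2, -⟩ := c5 i k Δ _ hΔ hΔD (Or.inr (hJ.symm ▸ hγW)) x
      ⟨hx, fun h' => h (hJ ▸ mem_image_of_mem _ h')⟩ (hGW hy)
    exact disjoint_left.1 (hin' γ' h1 fun e => h (e ▸ h2)) h2 hy
  have hUO : X.U i ⊆ X.O k := (st.anc k i).resolve_right fun ⟨c, _, _, h1, h2, _⟩ =>
    disjoint_left.1 h2 (image_mono h1 (hγD hy₀)) (hWU i (hγW hy₀))
  obtain ⟨k1, k2, k3⟩ := X.col_ok k
  obtain ⟨T, ε, H, t1, t2, t3, t4, t5, t6⟩ := core hL hA hN (c := (X.col k).map g)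
    (P := g.toFun '' X.Pr) (st.on i).1.ok (Bd.Mp.map_ok g k1 k2) hG hδ hGW
    (by rw [Bd.Mp.map_W g k2]; exact image_mono (hΔD.trans k3)) hi (X.oO k).1 (X.oO k).2.1
    ((hGW.trans (hWU i)).trans hUO) ((image_mono hΔD).trans (st.sub k))
    (by
      rintro _ ⟨x, hx, rfl⟩ s hs h
      rw [Bd.Mp.map_M g _ (hDΩ (hΔD hx)),
        g.memImgD X.sub (k2 (k1.Mmem x (W_sub _ (k3 (hΔD hx))) s hs).1)] at h
      exact X.free k x (hΔ' hx) s hs h)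
    (st.keep i k).1 (image_mono hΔD) (image_mono (X.disc k).2)
  exact ⟨i, k, g.invFun '' γ, Δ, G, T, ε, g.trans ((H.restr g.conicalSet_right (subset_univ _)).cast
    rfl (St.Tg.image_eq_of_off H t5 (X.oO k).2.2)),
    { disc := ⟨hΔ, hΔ'⟩
      cap := ⟨hJ.symm ▸ hG, hGW⟩
      inner := hJ.symm ▸ hin'
      mem := t1
      dich := fun c hc hp hd => t2 _ (image_mono hc) (hp.image _ (g.cont.mono (hc.trans X.sub))) hd
      sgn := t3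
      side := t4
      off := fun x _ h => t5 _ h
      mov := fun x hx => t6 _ (mem_image_of_mem _ hx) }⟩

end P073.Sg
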