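import Vale.Agent.P073Y.Sg.Sk
import Vale.Agent.P073Y.Bd.Bas
import Vale.Agent.P073Z.A12

/-!
# Surgery: the relation and the state after a move
-/

set_option linter.all false

open Set Metric Topology Filter

namespace P073.Sg

open P073.Bd (Band I cl Lev)

theorem mrel : MREL := by
  intro Ω Λ κ ι X g g' b i k J Δ G T ε hS hM
  have hU := (hS.on i).2.2
  refine ⟨fun x hx h => hM.off x hx (h k), fun x hx => (hM.mov x hx).imp (fun h => h.1)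
    fun h => ⟨i, hU h.2.1⟩, fun c hc hp j ⟨_, ⟨x, hx, rfl⟩, h1⟩ => ?_⟩
  refine or_iff_not_imp_left.2 fun h2 => ?_
  obtain ⟨h3, h4, -⟩ := (hM.mov x (hc hx)).resolve_left fun h => h2 ⟨_, ⟨x, hx, h.1.symm⟩, h1⟩
  obtain rfl : i = j := by_contra fun h => disjoint_left.1 (X.disj i j h) (hU h4) h1
  have h5 := (hM.dich c hc hp (disjoint_left.2 fun y hy h => h2 ⟨y, hy, hU (hM.cap.2 h).1⟩)).resolve_right
    fun h => disjoint_left.1 h ⟨x, hx, rfl⟩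
      (h3.resolve_right fun h' => h2 ⟨_, ⟨x, hx, rfl⟩, hU h'.1⟩)
  rintro _ ⟨y, hy, rfl⟩
  exact hU ((hM.mov y (hc hy)).resolve_left fun h => h.2 (h5 ⟨y, hy, rfl⟩)).2.1

namespace M6

variable {Ω Λ : Set E3} {κ ι : Type} {X : Dat Ω Λ κ ι} {g g' : ConHomeo Ω Λ} {b : ι → Band E3}
  {i : ι} {k : κ} {J Δ G T : Set E3} {ε : ℝ}

theorem lev_mem (h : ε = 1 ∨ ε = -1) {s : ℝ} (hs : s ∈ I) :
    ε / 2 + s / 4 ∈ I ∧ 0 < ε * (ε / 2 + s / 4) := by
  obtain ⟨h1, h2⟩ := hs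
  rcases h with rfl | rfl <;> exact ⟨⟨by linarith, by linarith⟩, by linarith⟩

open Classical in
/-- the new bands -/
theorem new (hS : Sta X g.toFun b) (h : ε = 1 ∨ ε = -1) (j : ι) :
    (Function.update b i (part (b i) ε) j).B ⊆ (b j).B ∧
    (∀ y ∈ (Function.update b i (part (b i) ε) j).B, ¬ (y ∈ (b i).B ∧ ε * (b i).u y ≤ 0)) ∧
    ∀ y, ∀ s ∈ I, ∃ s' ∈ I, (Function.update b i (part (b i) ε) j).M (y, s) = (b j).M (y, s') := by
  rcases eq_or_ne j i with rfl | hj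
  · rw [Function.update_self]
    refine ⟨fun y hy => hy.1, fun y hy h1 => ?_, fun y s hs => ⟨_, (lev_mem h hs).1, rfl⟩⟩
    have h2 := abs_le.1 hy.2
    rcases h with rfl | rfl <;> linarith [h1.2, h2.1, h2.2]
  · rw [Function.update_of_ne hj]
    exact ⟨Subset.rfl, fun y hy h1 => disjoint_left.1 (X.disj j i hj) ((hS.on j).2.2 hy)
      ((hS.on i).2.2 h1.1), fun y s hs => ⟨s, hs, rfl⟩⟩

/-- a connected set off the moved side is not moved -/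
theorem still (hM : Mv X g.toFun b i k J Δ G T ε g'.toFun) {F Y : Set E3} (hY : Y ⊆ X.Pr)
    (hF : IsPreconnected F) (hs : F ⊆ g.toFun '' Y)
    (hn : ∀ y ∈ F, ¬ (y ∈ (b i).B ∧ ε * (b i).u y ≤ 0)) {y : E3} (hy : y ∈ F) (hT : y ∉ T) :
    F ⊆ g'.toFun '' Y := by
  have h1 : F ⊆ Λ := hs.trans ((g.mapsTo.mono_left (hY.trans X.sub)).image_subset)
  have h2 : g.toFun '' (g.invFun '' F) = F := (g.right_inv.mono h1).image_image
  have h3 := (hM.dich (g.invFun '' F) (by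
    rintro _ ⟨w, hw, rfl⟩
    obtain ⟨x, hx, rfl⟩ := hs hw
    rw [g.left_inv (X.sub (hY hx))]
    exact hY hx) (hF.image _ (g.cont_inv.mono h1)) (by
    rw [h2]
    exact disjoint_left.2 fun w hw h => hn w hw ⟨(hM.cap.2 h).1, by
      rw [(hM.cap.2 h).2, mul_zero]⟩)).resolve_left fun h => hT (h (h2.symm ▸ hy))
  rw [h2] at h3
  intro w hw
  obtain ⟨x, hx, rfl⟩ := hs hw
  exact ⟨x, hx, ((hM.mov x (hY hx)).resolve_right fun h =>
    h.1.elim (disjoint_left.1 h3 hw) (hn _ hw)).1⟩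

theorem fixed (hM : Mv X g.toFun b i k J Δ G T ε g'.toFun) {Y : Set E3} (hY : Y ⊆ X.Pr) {y : E3}
    (hy : y ∈ g'.toFun '' Y) (hn : ¬ (y ∈ (b i).B ∧ ε * (b i).u y ≤ 0)) :
    y ∈ g.toFun '' Y ∧ y ∉ T := by
  obtain ⟨x, hx, rfl⟩ := hy
  obtain ⟨h1, h2⟩ := (hM.mov x (hY hx)).resolve_right fun h => hn h.2
  exact ⟨⟨x, hx, h1.symm⟩, h1.symm ▸ h2⟩

open Classical in
theorem keeps (hS : Sta X g.toFun b) (hM : Mv X g.toFun b i k J Δ G T ε g'.toFun) {j : ι}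
    (ho : (Function.update b i (part (b i) ε) j).Ok) {Y : Set E3} (hY : Y ⊆ X.Pr)
    (hk : (b j).Keeps (g.toFun '' Y)) :
    (Function.update b i (part (b i) ε) j).Keeps (g'.toFun '' Y) := by
  intro y hy s hs h1
  obtain ⟨n1, n2, n3⟩ := new (i := i) hS hM.sgn j
  obtain ⟨h2, h3⟩ := fixed hM hY h1 (n2 y hy)
  refine still hM hY (isPreconnected_Icc.image _ (Bd.Bas1.cont_fibre ho hy)) ?_ ?_
    ⟨_, ho.urange y hy, ho.Mid y hy⟩ h3 ⟨s, hs, rfl⟩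
  · rintro _ ⟨t, ht, rfl⟩
    obtain ⟨t', h4, h5⟩ := n3 y t ht
    exact mem_of_eq_of_mem h5 (hk y (n1 hy) t' h4 h2)
  · rintro _ ⟨t, ht, rfl⟩
    exact n2 _ (ho.Mmem y hy t ht).1

theorem anc (hR : Rel X g.toFun g'.toFun) {Y : Set E3} {j : ι} (h : X.Anc g.toFun Y j) :
    X.Anc g'.toFun Y j := by
  obtain ⟨c, h1, h2, h3, h4, z, h5, h6⟩ := h
  have h7 := hR.off z (X.sub (h1 h5)) h6
  refine ⟨c, h1, h2, h3, disjoint_iff_inter_eq_empty.2 (not_nonempty_iff_eq_empty.1 fun h => ?_),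
    z, h5, h7 ▸ h6⟩
  exact (hR.con c h1 h2 j h).elim (not_disjoint_iff_nonempty_inter.2 · h4) fun h8 =>
    disjoint_left.1 h4 ⟨z, h5, h7.symm⟩ (h8 ⟨z, h5, rfl⟩)

end M6

open M6 in
theorem msta_of (hP : PART) (hC : CIRC) : MSTA := by
  classical
  intro Ω Λ κ ι _ _ X g g' b i k J Δ G T ε hS hM hR
  obtain ⟨p1, p2, p3⟩ := hP (hS.on i).1 hM.sgn
  have hon : ∀ j, (Function.update b i (part (b i) ε) j).On univ ∧
      ConSphere 2 (Function.update b i (part (b i) ε) j).W := fun j => by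
    rcases eq_or_ne j i with rfl | hj
    · rw [Function.update_self]
      exact ⟨p1, p3 (hS.on j).2.1⟩
    · rw [Function.update_of_ne hj]
      exact ⟨(hS.on j).1, (hS.on j).2.1⟩
  refine ⟨⟨fun j => ⟨(hon j).1, (hon j).2, (new hS hM.sgn j).1.trans (hS.on j).2.2⟩,
    fun j l => ⟨keeps hS hM (hon j).1.ok (X.disc l).2 (hS.keep j l).1, keeps hS hM (hon j).1.ok
      ((X.disc l).1.1.trans (X.disc l).2) (hS.keep j l).2⟩, fun l => ?_,
    fun l j => (hS.anc l j).imp_right (anc hR)⟩, ?_⟩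
  · rintro _ ⟨x, hx, rfl⟩
    rcases hR.fix x ((X.disc l).2 hx) with h | ⟨j, h⟩
    · exact h ▸ hS.sub l ⟨x, hx, rfl⟩
    · refine (hS.anc l j).elim (fun h1 => h1 h) fun h1 => ?_
      obtain ⟨c, -, -, h2, h3, -⟩ := anc hR h1
      exact (disjoint_left.1 h3 ⟨x, h2 hx, rfl⟩ h).elim
  have ho := (hS.on i).1.ok
  have hε : ε / 2 ∈ I ∧ 0 ≤ ε * (ε / 2) := by
    simpa using (lev_mem hM.sgn Bd.Bas2.zero_mem_I).imp_right le_of_lt
  have hJ : g.toFun '' J ∈ circ X g.toFun b := ⟨hM.cap.1.isCircleD, i, k, subset_inter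
    (hM.cap.1.1.trans hM.cap.2)
    (image_mono (hM.disc.1.1.trans (hM.disc.2.trans diff_subset)))⟩
  have key : ∀ γ ∈ circ X g'.toFun (Function.update b i (part (b i) ε)),
      (γ ⊆ (b i).B ∧ (∀ y ∈ γ, (b i).M ((b i).M (y, 0), ε / 2) = y) ∧
        (fun y => (b i).M (y, 0)) '' γ ∈ circ X g.toFun b \ {g.toFun '' J}) ∨
      (¬ γ ⊆ (b i).B ∧ γ ∈ circ X g.toFun b \ {g.toFun '' J}) := by
    rintro γ ⟨h1, j, l, h2⟩
    have h3 := fun y (hy : y ∈ γ) =>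
      fixed hM (X.disc l).2 (h2 hy).2 ((new hS hM.sgn j).2.1 y (h2 hy).1.1)
    obtain ⟨y, hy⟩ := (A12.circle_isConnected h1).nonempty
    rcases eq_or_ne j i with rfl | hj
    · rw [Function.update_self] at h2
      have h4 : ∀ y ∈ γ, y ∈ (b j).B ∧ (b j).u y = ε / 2 := fun y hy =>
        ⟨(h2 hy).1.1.1, by linarith [Bd.Bas1.cl_eq_zero.1 (h2 hy).1.2]⟩
      have h5 : ∀ y ∈ γ, (b j).M ((b j).M (y, 0), ε / 2) = y := fun y hy =>
        (h4 y hy).2 ▸ Bd.Bas2.back ho (h4 y hy).1 Bd.Bas2.zero_mem_I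
      obtain ⟨Φ, -, h6⟩ := Bd.Bas2.level ho (fun x hx s hs _ => (ho.Mmem x hx s hs).1) ho.cpt
        ho.loc _ hε.1
      refine .inl ⟨fun y hy => (h4 y hy).1, h5, ⟨?_, j, l, ?_⟩, fun h => (h3 y hy).2 ?_⟩
      · rw [← funext h6]
        exact A12.circle_image h1 Φ.symm fun y hy => ⟨⟨(h4 y hy).1, (h4 y hy).1⟩, (h4 y hy).2⟩
      · rintro _ ⟨y, hy, rfl⟩
        exact ⟨Bd.Bas2.M_mem_W ho (h4 y hy).1,
          (hS.keep j l).1 y (h4 y hy).1 0 Bd.Bas2.zero_mem_I (h3 y hy).1⟩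
      · exact h5 y hy ▸ hM.side _ (hM.cap.1.1 (h.le ⟨y, hy, rfl⟩)) _ hε.1 hε.2
    · rw [Function.update_of_ne hj] at h2
      exact .inr ⟨fun h => disjoint_left.1 (X.disj j i hj) ((hS.on j).2.2 (h2 hy).1.1)
        ((hS.on i).2.2 (h hy)), ⟨h1, j, l, fun y hy => ⟨(h2 hy).1, (h3 y hy).1⟩⟩,
        fun h => (h3 y hy).2 (hM.mem (image_mono hM.disc.1.1 (h.le hy)))⟩
  refine (ncard_le_ncard_of_injOn (fun γ => if γ ⊆ (b i).B then (fun y => (b i).M (y, 0)) '' γ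
    else γ) (fun γ hγ => ?_) (fun γ hγ γ' hγ' h => ?_) ((hC X g b hS).1.diff)).trans_lt
    (ncard_diff_singleton_lt_of_mem hJ (hC X g b hS).1)
  · rcases key γ hγ with h | h
    · exact (if_pos h.1).symm ▸ h.2.2
    · exact (if_neg h.1).symm ▸ h.2
  · have hB : ∀ γ ⊆ (b i).B, (fun y => (b i).M (y, 0)) '' γ ⊆ (b i).B := fun γ h =>
      image_subset_iff.2 fun y hy => (Bd.Bas2.M_mem_W ho (h hy)).1
    have hI : ∀ γ : Set E3, (∀ y ∈ γ, (b i).M ((b i).M (y, 0), ε / 2) = y) →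
        (fun y => (b i).M (y, ε / 2)) '' ((fun y => (b i).M (y, 0)) '' γ) = γ := fun γ h => by
      rw [image_image, image_congr h, image_id']
    rcases key γ hγ with h1 | h1 <;> rcases key γ' hγ' with h2 | h2
    · simp only [if_pos h1.1, if_pos h2.1] at h
      rw [← hI γ h1.2.1, h, hI γ' h2.2.1]
    · simp only [if_pos h1.1, if_neg h2.1] at h
      exact (h2.1 (h ▸ hB γ h1.1)).elim
    · simp only [if_neg h1.1, if_pos h2.1] at h
      exact (h1.1 (h ▸ hB γ' h2.1)).elim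
    · simpa only [if_neg h1.1, if_neg h2.1] using h

end P073.Sg
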