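import Vale.Agent.P073Y.Sg.Sk
import Vale.Agent.P073Y.Nt.All
import Vale.Agent.P073Y.Bd.Bas1
import Vale.Agent.P073Z.TriU
import Vale.Agent.P073Z.RCX2
import Vale.Agent.P073Z.SCH3.Basic

/-!
# A natural band at a generic radius
-/

open Set Metric Topology Filter

namespace P073.Sg

open P073.Bd (Band I cl)
open P073.A2 P073.Bd.Bas1

/-- an interval which misses a finite set -/
theorem exists_gap {L : Set ℝ} (hL : L.Finite) {r r' : ℝ} (h : r < r') :
    ∃ t lam : ℝ, 0 < lam ∧ r < t - lam ∧ t + lam < r' ∧ ∀ a ∈ L, lam < |a - t| := by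
  obtain ⟨t, ht⟩ := ((Ioo_infinite h).sdiff hL).nonempty
  obtain ⟨lam, h0, h1⟩ := nhds_basis_closedBall.mem_iff.1
    ((isOpen_Ioo.sdiff hL.isClosed).mem_nhds ht)
  have a1 : t - lam ∈ closedBall t lam := by
    rw [mem_closedBall, Real.dist_eq, sub_sub_cancel_left, abs_neg, abs_of_pos h0]
  have a2 : t + lam ∈ closedBall t lam := by
    rw [mem_closedBall, Real.dist_eq, add_sub_cancel_left, abs_of_pos h0]
  exact ⟨t, lam, h0, (h1 a1).1.1, (h1 a2).1.2, fun a ha => lt_of_not_ge fun hc => (h1 hc).2 ha⟩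

theorem skel_finite (K : RCx E3) [Finite K.ι] : (K.skel 0).Finite :=
  finite_iUnion fun i => finite_iUnion fun h => by
    obtain ⟨a, ha⟩ := K.exists_vertex (Nat.le_zero.1 h)
    rw [ha]
    exact finite_singleton a

theorem pl_dist (c : E3) : PLOn (fun y : E3 => ‖y - c‖) univ :=
  pl_comp_univ (pl_norm_pi 3) (pl_sub (pl_id conicalSet_univ) (pl_const c conicalSet_univ))

theorem nband : NBAND := by
  intro α _ Y c r r' hr hrr hY
  have hC := conBall_closedBall_at c (hr.trans hrr)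
  have hX : ∀ k : Option α, IsCompact (k.elim (closedBall c r') Y) ∧
      LocCone (k.elim (closedBall c r') Y) := fun k => by
    cases k
    exacts [⟨hC.isCompact, hC.locCone⟩, hY _]
  obtain ⟨K, hK, -, -, hs⟩ := tri (U := univ) (fun k : Option α => k.elim (closedBall c r') Y)
    (fun _ y => ‖y - c‖) (r := fun _ => 1) isOpen_univ ⟨continuousOn_const, fun _ _ => one_pos⟩
    (fun x _ => ⟨univ, univ_mem, toFinite _⟩)
    fun k => ⟨subset_univ _, closedIn_of_isClosed (hX k).1.isClosed _, fun x _ => (hX k).2 x,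
      pl_mono (pl_dist c) (hX k).2.conicalSet (subset_univ _)⟩
  have hsub : K.Sub (closedBall c r') := (hs none).1
  have := hsub.finite_within hC.isCompact
  obtain ⟨t, lam, h0, h1, h2, h3⟩ := exists_gap
    ((skel_finite (K.within (closedBall c r'))).image fun y => ‖y - c‖) hrr
  have hf : PLOn (fun y : E3 => lam⁻¹ * (‖y - c‖ - t)) univ :=
    pl_mul _ (pl_sub (pl_dist c) (pl_const t conicalSet_univ))
  have habs : ∀ y : E3, |lam⁻¹ * (‖y - c‖ - t)| ≤ 1 ↔ |‖y - c‖ - t| ≤ lam := fun y => by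
    rw [abs_mul, abs_of_pos (inv_pos.2 h0), inv_mul_le_one₀ h0]
  have lin : ∀ j : (K.within (closedBall c r')).ι,
      Nt.Lin ((K.within (closedBall c r')).cell j) ((K.within (closedBall c r')).bd j)
        fun (_ : Unit) (y : E3) => lam⁻¹ * (‖y - c‖ - t) := fun j => by
    obtain ⟨A, hA⟩ := (hs none).2 j.1 j.2
    refine ⟨K.cell j.1, ConHomeo.refl (K.ball j.1).conicalSet,
      fun _ => lam⁻¹ • (A - AffineMap.const ℝ E3 t), (hK j.1).1,
      (image_id' _).trans (hK j.1).2.1, fun _ x hx => ?_⟩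
    exact congrArg (fun a => lam⁻¹ * (a - t)) (hA hx)
  obtain ⟨b, hb, -⟩ := Nt.natg0 (K.within (closedBall c r')) univ
    (fun (_ : Unit) (y : E3) => lam⁻¹ * (‖y - c‖ - t)) (fun _ _ _ _ => mem_univ _)
    fun j _ => Nt.glin (fun _ => true) ((K.within (closedBall c r')).ball j) (lin j)
      (fun i => Nt.bothv _ _ j (fun j' _ => lin j') i fun x hx =>
        lt_of_not_ge fun hc => (h3 _ (mem_image_of_mem _ hx.2)).not_ge ((habs x).1 hc))
      fun i i' hn => absurd (Subsingleton.elim i i') hn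
  obtain ⟨nb, kp⟩ := hb ()
  rw [biUnion_univ, show ⋃ j, (K.within (closedBall c r')).cell j = closedBall c r' from
    hsub.within_carrier] at nb
  have ok := nb.on.ok
  have ue : ∀ x ∈ (b ()).B, cl (lam⁻¹ * (‖x - c‖ - t)) = (b ()).u x :=
    fun x hx => (nb.u_eq x (nb.on.sub hx)).symm
  have on : Band.On ⟨(b ()).B, fun x => cl (lam⁻¹ * (‖x - c‖ - t)), (b ()).M⟩ univ := by
    refine ⟨⟨ok.cpt, ok.loc, pl_congr ok.upl ue, ok.Mpl, fun x _ => cl_mem _,
      fun x hx s hs => ⟨(ok.Mmem x hx s hs).1, (ue _ (ok.Mmem x hx s hs).1).trans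
        (ok.Mmem x hx s hs).2⟩, fun x hx => ?_, ok.MM⟩, subset_univ _, pl_cl hf,
      fun x _ hx => ?_⟩
    · exact (congrArg (fun a => (b ()).M (x, a)) (ue x hx)).trans (ok.Mid x hx)
    · have : 1 < |lam⁻¹ * (‖x - c‖ - t)| := lt_of_not_ge fun hc => hx ((nb.mem x (by
        rw [mem_closedBall_iff_norm]
        linarith [(abs_le.1 ((habs x).1 hc)).2])).2 hc)
      rcases lt_abs.1 this with h | h
      exacts [Or.inl (cl_of_ge h.le), Or.inr (cl_of_le (by linarith))]
  have eW : Band.W ⟨(b ()).B, fun x => cl (lam⁻¹ * (‖x - c‖ - t)), (b ()).M⟩ = sphere c t := by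
    rw [on_W on]
    ext x
    simp only [mem_ofPred_eq, mem_univ, true_and, cl_eq_zero, mem_sphere_iff_norm, mul_eq_zero,
      inv_eq_zero, h0.ne', false_or, sub_eq_zero]
  refine ⟨_, t, by linarith, by linarith, on, eW, ?_, fun x hx => ?_, fun a x hx s hs' hy => ?_⟩
  · rw [eW]
    exact (conBall_closedBall_at c (by linarith)).conSphere
  · rw [mem_ball_iff_norm]
    linarith [(abs_le.1 ((habs x).1 ((nb.mem x (nb.on.sub hx)).1 hx))).2]
  · obtain ⟨j, hj, hjs⟩ := (hs (some a)).1.exists_ocell hy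
    exact hjs (kp ⟨j, hsub.cell_subset hj (nb.on.sub hx)⟩ x hx s hs' hj.1)

end P073.Sg
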