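import Vale.Agent.P073Y.Sg.Circ

/-!
# The surgery: induction on the number of circles
-/

open Set Metric Topology Filter

namespace P073.Sg

open P073.Bd (Band)

variable {Ω Λ : Set E3} {κ ι : Type} {X : Dat Ω Λ κ ι}

theorem Rel.refl (X : Dat Ω Λ κ ι) (g : E3 → E3) : Rel X g g where
  off := fun _ _ _ => rfl
  fix := fun _ _ => Or.inl rfl
  con := fun _ _ _ _ h => Or.inl h

theorem Rel.stay {g g' : E3 → E3} (h : Rel X g g') {x : E3} (hx : x ∈ X.Pr) {i : ι}
    (hi : g x ∈ X.U i) : ∃ j, g' x ∈ X.U j := by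
  rcases h.fix x hx with e | e
  · exact ⟨i, e ▸ hi⟩
  · exact e

theorem Rel.trans {g g₁ g₂ : E3 → E3} (h : Rel X g g₁) (h' : Rel X g₁ g₂) : Rel X g g₂ where
  off := fun x hx H => by
    have e := h.off x hx H
    rw [h'.off x hx (by rwa [e]), e]
  fix := fun x hx => by
    rcases h.fix x hx with e | ⟨i, hi⟩
    · exact (h'.fix x hx).imp_left fun e' => e'.trans e
    · exact Or.inr (h'.stay hx hi)
  con := fun c hc hp j hj => by
    rcases h'.con c hc hp j hj with h1 | h1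
    swap
    · exact Or.inr h1
    rcases h.con c hc hp j h1 with h2 | h2
    · exact Or.inl h2
    refine Or.inr ?_
    rintro _ ⟨y, hy, rfl⟩
    obtain ⟨i, hi⟩ := h'.stay (hc hy) (h2 ⟨y, hy, rfl⟩)
    by_cases e : i = j
    · exact e ▸ hi
    rcases h'.con c hc hp i ⟨_, ⟨y, hy, rfl⟩, hi⟩ with ⟨z, h3, h4⟩ | h3
    · exact (disjoint_left.1 (X.disj i j e) h4 (h2 h3)).elim
    · obtain ⟨z, h4, h5⟩ := hj
      exact (disjoint_left.1 (X.disj i j e) (h3 h4) h5).elim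

theorem surg_of (_hI : CIRC) (hV : MOV) (hR : MREL) (hS : MSTA) (hC : MCAP) : SURG := by
  intro Ω Λ κ ι _ _ X g b H
  classical
  induction hn : (circ X g.toFun b).ncard using Nat.strong_induction_on generalizing g b with
  | _ n ih =>
  rcases (circ X g.toFun b).eq_empty_or_nonempty with h0 | h0
  · refine ⟨g, Rel.refl X _, ?_⟩
    rintro Δ ⟨i, k, J, h1, h2, h3⟩
    have hJ := h1.1.trans h2
    have : g.toFun '' J ∈ circ X g.toFun b :=
      ⟨Ci.circ_image h1.isCircleD g (hJ.trans ((X.disc k).2.trans X.sub)), i, k,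
        subset_inter h3 (image_mono hJ)⟩
    rw [h0] at this
    exact this.elim
  obtain ⟨i, k, J, Δ, G, T, ε, g₁, M⟩ := hV X g b H h0
  have r1 := hR X g g₁ b H M
  obtain ⟨s1, lt⟩ := hS X g g₁ b H M r1
  obtain ⟨g₂, r2, c2⟩ := ih _ (hn ▸ lt) g₁ _ s1 rfl
  refine ⟨g₂, r1.trans r2, fun Δ₀ hΔ x hx => ?_⟩
  have hP : x ∈ X.Pr := by
    obtain ⟨_, k', _, -, h2, -⟩ := hΔ
    exact (X.disc k').2 (h2 hx)
  rcases hC X g g₁ b H M Δ₀ hΔ with h1 | ⟨Δ₁, h1, h2⟩
  · exact r2.stay hP (h1 x hx)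
  · rcases h2 x hx with h3 | h3
    · exact c2 Δ₁ h1 x h3
    · exact (r1.trans r2).stay hP h3

end P073.Sg
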