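import Vale.Agent.P073Y.Sg.Sk
import Vale.Agent.P073Z.A12.Mod
import Vale.Agent.P073Z.A12.Arcs

/-!
# The surgery along round spheres
-/

open Set Metric Topology Filter

namespace P073.Sg

/-- a connected set which misses a sphere lies on one side -/
theorem side_sphere {Z : Set E3} {c : E3} {t : ℝ} (hZ : IsPreconnected Z)
    (hd : Disjoint Z (sphere c t)) : Z ⊆ ball c t ∨ Z ⊆ (closedBall c t)ᶜ :=
  hZ.subset_or_subset isOpen_ball isClosed_closedBall.isOpen_compl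
    (disjoint_compl_right.mono_left ball_subset_closedBall) fun y hy => by
      rcases lt_trichotomy (dist y c) t with h | h | h
      exacts [Or.inl h, absurd h (disjoint_left.1 hd hy), Or.inr (not_le.2 h)]

/-- a connected set inside disjoint open sets lies in one of them -/
theorem one_open {ι : Type} {U : ι → Set E3} {Z : Set E3} (hU : ∀ i, IsOpen (U i))
    (hd : ∀ i j, i ≠ j → Disjoint (U i) (U j)) (hZ : IsConnected Z) (hs : ∀ y ∈ Z, ∃ i, y ∈ U i) :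
    ∃ i, Z ⊆ U i := by
  obtain ⟨y, hy⟩ := hZ.nonempty
  obtain ⟨i, hi⟩ := hs y hy
  refine ⟨i, hZ.isPreconnected.subset_left_of_subset_union (v := ⋃ j, ⋃ (_ : i ≠ j), U j) (hU i)
    (isOpen_iUnion fun j => isOpen_iUnion fun _ => hU j)
    (disjoint_iUnion₂_right.2 fun j hj => hd i j hj) (fun z hz => ?_) ⟨y, hy, hi⟩⟩
  obtain ⟨j, hj⟩ := hs z hz
  by_cases e : i = j
  · exact Or.inl (e ▸ hj)
  · exact Or.inr (mem_iUnion₂.2 ⟨j, e, hj⟩)

theorem surgb_of (h1 : NBAND) (h2 : CIRC) (h3 : SURG) (h4 : ARCJ) : SURGB := by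
  intro Ω Λ κ ι _ _ X g c r r' hr hO hA
  have hD : ∀ k, X.D k ⊆ Ω := fun k => (X.disc k).2.trans X.sub
  have hB := fun k => (X.disc k).1.image g (hD k)
  choose b t t1 t2 on eW sph sub kp using fun i => h1
    (Sum.elim (fun k => g.toFun '' X.D k) fun k => g.toFun '' X.S k) (c i) (hr i).1 (hr i).2.1
    fun a => by
      cases a
      exacts [⟨(hB _).isCompact, (hB _).locCone⟩, ⟨(hB _).isCompact_bdry, (hB _).locCone_bdry⟩]
  have hU : ∀ i, (b i).W ⊆ X.U i := fun i y hy => by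
    rw [(hr i).2.2]
    exact sub i hy.1
  have St : Sta X g.toFun b := ⟨fun i => ⟨on i, sph i, by rw [(hr i).2.2]; exact sub i⟩,
    fun i k => ⟨kp i (.inl k), kp i (.inr k)⟩, hO, hA⟩
  obtain ⟨g', rel, cap⟩ := h3 X g b St
  refine ⟨g', rel, fun k x hx => ?_⟩
  have fix : ∀ i, g.toFun x ∈ X.U i → ∃ i, g'.toFun x ∈ X.U i := fun i hi =>
    (rel.fix x ((X.disc k).2 hx)).elim (fun e => ⟨i, e ▸ hi⟩) id
  by_cases hT : ∃ i, g.toFun x ∈ (b i).W
  · obtain ⟨i, hi⟩ := hT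
    exact Or.inl (fix i (hU i hi))
  by_cases hc : ∃ Δ J, ConBall 2 Δ J ∧ Δ ⊆ X.D k ∧
      J ⊆ {x ∈ X.D k | ∃ i, g.toFun x ∈ (b i).W} ∧ x ∈ Δ
  · obtain ⟨Δ, J, a1, a2, a3, a4⟩ := hc
    obtain ⟨i, hi⟩ := one_open (fun i => (X.oU i).1) X.disj
      (A12.circle_isConnected (a1.image g (a2.trans (hD k))).isCircleD) (by
        rintro _ ⟨y, hy, rfl⟩
        obtain ⟨j, hj⟩ := (a3 hy).2
        exact ⟨j, hU j hj⟩)
    refine Or.inl (cap Δ ⟨i, k, J, a1, a2, ?_⟩ x a4)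
    rintro _ ⟨y, hy, rfl⟩
    obtain ⟨j, hj⟩ := (a3 hy).2
    by_cases e : i = j
    · exact e ▸ hj
    · exact absurd (hU j hj) (disjoint_left.1 (X.disj i j e) (hi ⟨y, hy, rfl⟩))
  obtain ⟨Z, z1, z2, z3, z4⟩ := h4 (X.disc k).1 (fun y hy => hy.1) ((h2 X g b St).2.2.2.1 k) hx
    (fun h => hT h.2) fun Δ J a1 a2 a3 a4 => hc ⟨Δ, J, a1, a2, a3, a4⟩
  have hZ : IsPreconnected (g.toFun '' Z) :=
    z2.image _ (g.cont.mono fun y hy => hD k (z1 hy).1)
  by_cases hx' : ∃ i, g.toFun x ∈ X.U i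
  · obtain ⟨i, hi⟩ := hx'
    exact Or.inl (fix i hi)
  refine Or.inr ⟨Z, fun y hy => (z1 hy).1, z2, z3, z4, fun i => ?_⟩
  rcases side_sphere (c := c i) (t := t i) hZ (disjoint_left.2 (by
    rintro _ ⟨y, hy, rfl⟩ h
    exact (z1 hy).2 ⟨(z1 hy).1, i, by rw [eW i]; exact h⟩)) with h | h
  · refine absurd ⟨i, ?_⟩ hx'
    rw [(hr i).2.2]
    exact ball_subset_ball (t2 i).le (h ⟨x, z3, rfl⟩)
  · exact disjoint_left.2 fun y hy hy' => h hy (closedBall_subset_closedBall (t1 i).le hy')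

end P073.Sg
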