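import Vale.Agent.P073Y.Sg.Absorb
import Vale.Agent.P073Y.Sg.Arcj
import Vale.Agent.P073Y.Sg.Circ
import Vale.Agent.P073Y.Sg.Coll
import Vale.Agent.P073Y.Sg.Cover
import Vale.Agent.P073Y.Sg.Inner
import Vale.Agent.P073Y.Sg.Lens
import Vale.Agent.P073Y.Sg.Lens0
import Vale.Agent.P073Y.Sg.Loop
import Vale.Agent.P073Y.Sg.Mcap
import Vale.Agent.P073Y.Sg.Mov
import Vale.Agent.P073Y.Sg.Msta
import Vale.Agent.P073Y.Sg.Nband
import Vale.Agent.P073Y.Sg.Surg
import Vale.Agent.P073Y.Sg.Surgb
import Vale.Agent.P073Y.Sg.Zeta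

/-!
# The surgery along round spheres is proved
-/

namespace P073.Sg

theorem lens : LENS := lens_of thinh lensb (side_of coln)

theorem surg : SURG :=
  surg_of circ_thm (mov_of circ_thm inner lens absorb coln) mrel (msta_of part_thm circ_thm)
    (mcap_of part_thm circ_thm)

theorem surgb : SURGB := surgb_of nband circ_thm surg arcj

end P073.Sg
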