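import Vale.Agent.P073Y.Nt.Sk
import Vale.Agent.P073Z.Ax.Sk

/-!
# Surgery of sheets along small spheres: statements
-/

open Set Metric Topology Filter MeasureTheory
open scoped NNReal ENNReal

namespace P073.Sg

open P073.Bd (Band I cl Lev)

/-- the part of a band between the levels `ε / 4` and `3 ε / 4` -/
noncomputable def part (b : Band E3) (ε : ℝ) : Band E3 where
  B := {x ∈ b.B | |b.u x - ε / 2| ≤ 1 / 4}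
  u := fun x => cl (4 * (b.u x - ε / 2))
  M := fun q => b.M (q.1, ε / 2 + q.2 / 4)

/-- the column over a part of the wall -/
def colm (b : Band E3) (G : Set E3) : Set E3 := b.M '' (G ×ˢ I)

/-- the fixed data: the protected set, the sheets with their columns, the convex sets -/
structure Dat (Ω Λ : Set E3) (κ ι : Type) where
  /-- the protected set -/
  Pr : Set E3
  /-- the sheets -/
  D : κ → Set E3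
  /-- their boundaries -/
  S : κ → Set E3
  /-- their columns -/
  col : κ → Band E3
  /-- the convex sets round the spheres -/
  U : ι → Set E3
  /-- the convex sets round the images of the sheets -/
  O : κ → Set E3
  oΩ : IsOpen Ω
  oΛ : IsOpen Λ
  sub : Pr ⊆ Ω
  disc : ∀ k, ConBall 2 (D k) (S k) ∧ D k ⊆ Pr
  inter : ∀ k l, k ≠ l → D k ∩ D l ⊆ S k
  col_ok : ∀ k, (col k).Ok ∧ (col k).B ⊆ Ω ∧ D k ⊆ (col k).W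
  free : ∀ k, ∀ x ∈ D k \ S k, ∀ s ∈ I, (col k).M (x, s) ∈ Pr → s = 0
  oU : ∀ i, IsOpen (U i) ∧ Convex ℝ (U i)
  disj : ∀ i j, i ≠ j → Disjoint (U i) (U j)
  oO : ∀ k, IsOpen (O k) ∧ Convex ℝ (O k) ∧ O k ⊆ Λ

variable {Ω Λ : Set E3} {κ ι : Type}

/-- `Y` is joined in the protected set, off `U j`, to a point which is never moved -/
def Dat.Anc (X : Dat Ω Λ κ ι) (g : E3 → E3) (Y : Set E3) (j : ι) : Prop :=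
  ∃ c ⊆ X.Pr, IsPreconnected c ∧ Y ⊆ c ∧ Disjoint (g '' c) (X.U j) ∧ ∃ z ∈ c, ∀ k, g z ∉ X.O k

/-- the map and the bands of the spheres -/
structure Sta (X : Dat Ω Λ κ ι) (g : E3 → E3) (b : ι → Band E3) : Prop where
  on : ∀ i, (b i).On univ ∧ ConSphere 2 (b i).W ∧ (b i).B ⊆ X.U i
  keep : ∀ i k, (b i).Keeps (g '' X.D k) ∧ (b i).Keeps (g '' X.S k)
  sub : ∀ k, g '' X.D k ⊆ X.O k
  anc : ∀ k j, X.U j ⊆ X.O k ∨ X.Anc g (X.D k) j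

/-- how the map changes -/
structure Rel (X : Dat Ω Λ κ ι) (g g' : E3 → E3) : Prop where
  off : ∀ x ∈ Ω, (∀ k, g x ∉ X.O k) → g' x = g x
  fix : ∀ x ∈ X.Pr, g' x = g x ∨ ∃ i, g' x ∈ X.U i
  con : ∀ c ⊆ X.Pr, IsPreconnected c → ∀ j, (g' '' c ∩ X.U j).Nonempty →
    (g '' c ∩ X.U j).Nonempty ∨ g' '' c ⊆ X.U j

/-- the circles of the traces of the sheets on the spheres -/
def circ (X : Dat Ω Λ κ ι) (g : E3 → E3) (b : ι → Band E3) : Set (Set E3) :=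
  {γ | IsCircle γ ∧ ∃ i k, γ ⊆ (b i).W ∩ g '' X.D k}

/-- a disc in a sheet whose boundary is mapped to a sphere -/
def Cap (X : Dat Ω Λ κ ι) (g : E3 → E3) (b : ι → Band E3) (Δ : Set E3) : Prop :=
  ∃ i k J, ConBall 2 Δ J ∧ Δ ⊆ X.D k ∧ g '' J ⊆ (b i).W

/-- the data of one move: the cap `G` on the sphere `i`, the disc `Δ` in the
sheet `k`, the ball `T` between them, the side `ε` -/
structure Mv (X : Dat Ω Λ κ ι) (g : E3 → E3) (b : ι → Band E3) (i : ι) (k : κ)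
    (J Δ G T : Set E3) (ε : ℝ) (g' : E3 → E3) : Prop where
  disc : ConBall 2 Δ J ∧ Δ ⊆ X.D k \ X.S k
  cap : ConBall 2 G (g '' J) ∧ G ⊆ (b i).W
  inner : ∀ γ ∈ circ X g b, γ ≠ g '' J → Disjoint γ G
  mem : g '' Δ ⊆ T
  dich : ∀ c ⊆ X.Pr, IsPreconnected c → Disjoint (g '' c) G → g '' c ⊆ T ∨ Disjoint (g '' c) T
  sgn : ε = 1 ∨ ε = -1
  side : ∀ y ∈ G, ∀ s ∈ I, 0 ≤ ε * s → (b i).M (y, s) ∈ T
  off : ∀ x ∈ Ω, g x ∉ X.O k → g' x = g x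
  mov : ∀ x ∈ X.Pr, (g' x = g x ∧ g x ∉ T) ∨ ((g x ∈ T ∨ g x ∈ (b i).B ∧ ε * (b i).u (g x) ≤ 0) ∧
    g' x ∈ (b i).B ∧ ε * (b i).u (g' x) ≤ 0)

/-! ### bands, lenses, balls -/

/-- the part of a band -/
def PART : Prop := ∀ {b : Band E3} {ε : ℝ}, b.On univ → (ε = 1 ∨ ε = -1) →
  (part b ε).On univ ∧ (part b ε).W = (fun x => b.M (x, ε / 2)) '' b.W ∧
    (ConSphere 2 b.W → ConSphere 2 (part b ε).W)

/-- the column over a disc is a neighbourhood of its inner points -/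
def COLN : Prop := ∀ {b : Band E3} {G J : Set E3}, b.Ok → ConBall 2 G J → G ⊆ b.W →
  ∀ x ∈ G \ J, ∀ s ∈ Ioo (-1:ℝ) 1, colm b G ∈ 𝓝 (b.M (x, s))

/-- a thin height function -/
def THINH : Prop := ∀ {b : Band E3} {G J Y O : Set E3}, b.Ok → ConBall 2 G J → G ⊆ b.W →
  IsCompact Y → LocCone Y → Y ∩ G ⊆ J → IsOpen O → G ⊆ O →
  ∃ h : E3 → ℝ, PLOn h G ∧ ∀ x ∈ G, 0 ≤ h x ∧ h x ≤ 1 ∧ (h x = 0 ↔ x ∈ J) ∧
    ∀ s : ℝ, |s| ≤ h x → b.M (x, s) ∈ O ∧ (x ∉ J → b.M (x, s) ∉ Y)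

/-- the lens under a height function -/
def LENSB : Prop := ∀ {b : Band E3} {G J : Set E3} {h : E3 → ℝ} {ε : ℝ}, b.Ok → ConBall 2 G J →
  G ⊆ b.W → PLOn h G → (∀ x ∈ G, 0 ≤ h x ∧ h x ≤ 1 ∧ (h x = 0 ↔ x ∈ J)) → (ε = 1 ∨ ε = -1) →
  ConBall 3 (b.M '' {q | q.1 ∈ G ∧ 0 ≤ ε * q.2 ∧ ε * q.2 ≤ h q.1})
    (G ∪ (fun x => b.M (x, ε * h x)) '' G) ∧
  ConBall 2 ((fun x => b.M (x, ε * h x)) '' G) J ∧ G ∩ (fun x => b.M (x, ε * h x)) '' G = J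

/-- one side of a disc in the boundary of a ball is inside, the other one outside -/
def SIDE : Prop := ∀ {b : Band E3} {G G₁ J T : Set E3} {h : E3 → ℝ}, b.Ok → ConBall 2 G J →
  G ⊆ b.W → ConBall 3 T (G ∪ G₁) → ContinuousOn h G →
  (∀ x ∈ G, 0 ≤ h x ∧ h x ≤ 1 ∧ (x ∉ J → 0 < h x)) →
  (∀ x ∈ G \ J, ∀ s : ℝ, |s| ≤ h x → b.M (x, s) ∉ G₁) →
  ∃ ε : ℝ, (ε = 1 ∨ ε = -1) ∧ (∀ x ∈ G, ∀ s : ℝ, 0 ≤ ε * s → ε * s ≤ h x → b.M (x, s) ∈ T) ∧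
    ∀ x ∈ G \ J, ∀ s : ℝ, ε * s < 0 → |s| ≤ h x → b.M (x, s) ∉ T

/-- a thin lens on the outer side of a disc in the boundary of a ball -/
def LENS : Prop := ∀ {b : Band E3} {G G₁ J T Y O : Set E3}, b.Ok → ConBall 2 G J → G ⊆ b.W →
  ConBall 3 T (G ∪ G₁) → ConBall 2 G₁ J → G ∩ G₁ = J → IsCompact Y → LocCone Y → Y ∩ G ⊆ J →
  IsOpen O → G ⊆ O →
  ∃ (C G' : Set E3) (ε : ℝ), (ε = 1 ∨ ε = -1) ∧ ConBall 3 C (G ∪ G') ∧ ConBall 2 G' J ∧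
    G ∩ G' = J ∧ C ∩ T = G ∧ C ∩ Y ⊆ J ∧ C ⊆ O ∧
    (∀ y ∈ C, y ∈ G ∨ ∃ x ∈ G \ J, ∃ s ∈ I, ε * s < 0 ∧ y = b.M (x, s)) ∧
    ((∀ x ∈ G \ J, ∀ s ∈ I, b.M (x, s) ∉ G₁) → ∀ x ∈ G, ∀ s ∈ I, 0 ≤ ε * s → b.M (x, s) ∈ T)

/-- the middle ball is pushed into the third one -/
def ABSORB : Prop := ∀ {X₁ X₂ X₃ G₀ G₁ G₂ G₃ J : Set E3}, ConBall 3 X₁ (G₁ ∪ G₀) →
  ConBall 3 X₂ (G₁ ∪ G₂) → ConBall 3 X₃ (G₂ ∪ G₃) → ConBall 2 G₀ J → ConBall 2 G₁ J →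
  ConBall 2 G₂ J → ConBall 2 G₃ J → G₁ ∩ G₀ = J → G₁ ∩ G₂ = J → G₂ ∩ G₃ = J →
  X₁ ∩ X₂ = G₁ → X₃ ∩ X₂ = G₂ → X₁ ∩ X₃ ⊆ J →
  ∃ H : ConHomeo (univ : Set E3) (univ : Set E3),
    (∀ y, y ∉ X₁ ∪ X₂ ∪ X₃ → H.toFun y = y) ∧ MapsTo H.toFun (X₂ ∪ X₃) X₃

/-- an innermost circle on a sphere -/
def INNER : Prop := ∀ {W : Set E3} {𝒞 : Set (Set E3)}, ConSphere 2 W → 𝒞.Finite → 𝒞.Nonempty →
  (∀ γ ∈ 𝒞, IsCircle γ ∧ γ ⊆ W) → (∀ γ ∈ 𝒞, ∀ γ' ∈ 𝒞, γ ≠ γ' → Disjoint γ γ') →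
  ∃ γ ∈ 𝒞, ∃ G, ConBall 2 G γ ∧ G ⊆ W ∧ ∀ γ' ∈ 𝒞, γ' ≠ γ → Disjoint γ' G

/-! ### the surgery -/

/-- the circles and the components of the traces -/
def CIRC : Prop := ∀ {Ω Λ : Set E3} {κ ι : Type} [Finite κ] [Finite ι] (X : Dat Ω Λ κ ι)
  (g : ConHomeo Ω Λ) (b : ι → Band E3), Sta X g.toFun b →
  (circ X g.toFun b).Finite ∧
  (∀ γ ∈ circ X g.toFun b, ∀ γ' ∈ circ X g.toFun b, γ ≠ γ' → Disjoint γ γ') ∧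
  (∀ γ ∈ circ X g.toFun b, ∀ k, (γ ∩ g.toFun '' X.D k).Nonempty →
    γ ⊆ g.toFun '' X.D k ∧ Disjoint γ (g.toFun '' X.S k)) ∧
  (∀ k, Lev {x ∈ X.D k | ∃ i, g.toFun x ∈ (b i).W} (X.S k)) ∧
  ∀ i k Δ J, ConBall 2 Δ J → Δ ⊆ X.D k →
    (Disjoint (g.toFun '' J) (b i).W ∨ g.toFun '' J ⊆ (b i).W) →
    ∀ x ∈ Δ \ J, g.toFun x ∈ (b i).W →
      ∃ γ ∈ circ X g.toFun b, g.toFun x ∈ γ ∧ γ ⊆ g.toFun '' (Δ \ J) ∩ (b i).W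

/-- the move -/
def MOV : Prop := ∀ {Ω Λ : Set E3} {κ ι : Type} [Finite κ] [Finite ι] (X : Dat Ω Λ κ ι)
  (g : ConHomeo Ω Λ) (b : ι → Band E3), Sta X g.toFun b → (circ X g.toFun b).Nonempty →
  ∃ (i : ι) (k : κ) (J Δ G T : Set E3) (ε : ℝ) (g' : ConHomeo Ω Λ),
    Mv X g.toFun b i k J Δ G T ε g'.toFun

/-- the relation after a move -/
def MREL : Prop := ∀ {Ω Λ : Set E3} {κ ι : Type} (X : Dat Ω Λ κ ι) (g g' : ConHomeo Ω Λ)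
  (b : ι → Band E3) {i : ι} {k : κ} {J Δ G T : Set E3} {ε : ℝ}, Sta X g.toFun b →
  Mv X g.toFun b i k J Δ G T ε g'.toFun → Rel X g.toFun g'.toFun

open Classical in
/-- the state after a move -/
def MSTA : Prop := ∀ {Ω Λ : Set E3} {κ ι : Type} [Finite κ] [Finite ι] (X : Dat Ω Λ κ ι)
  (g g' : ConHomeo Ω Λ) (b : ι → Band E3) {i : ι} {k : κ} {J Δ G T : Set E3} {ε : ℝ},
  Sta X g.toFun b → Mv X g.toFun b i k J Δ G T ε g'.toFun → Rel X g.toFun g'.toFun →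
  Sta X g'.toFun (Function.update b i (part (b i) ε)) ∧
    (circ X g'.toFun (Function.update b i (part (b i) ε))).ncard < (circ X g.toFun b).ncard

open Classical in
/-- the caps after a move -/
def MCAP : Prop := ∀ {Ω Λ : Set E3} {κ ι : Type} [Finite κ] [Finite ι] (X : Dat Ω Λ κ ι)
  (g g' : ConHomeo Ω Λ) (b : ι → Band E3) {i : ι} {k : κ} {J Δ G T : Set E3} {ε : ℝ},
  Sta X g.toFun b → Mv X g.toFun b i k J Δ G T ε g'.toFun →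
  ∀ Δ₀, Cap X g.toFun b Δ₀ → (∀ x ∈ Δ₀, g'.toFun x ∈ X.U i) ∨
    ∃ Δ₁, Cap X g'.toFun (Function.update b i (part (b i) ε)) Δ₁ ∧
      ∀ x ∈ Δ₀, x ∈ Δ₁ ∨ g.toFun x ∈ X.U i

/-- the surgery -/
def SURG : Prop := ∀ {Ω Λ : Set E3} {κ ι : Type} [Finite κ] [Finite ι] (X : Dat Ω Λ κ ι)
  (g : ConHomeo Ω Λ) (b : ι → Band E3), Sta X g.toFun b →
  ∃ g' : ConHomeo Ω Λ, Rel X g.toFun g'.toFun ∧
    ∀ Δ, Cap X g.toFun b Δ → ∀ x ∈ Δ, ∃ i, g'.toFun x ∈ X.U i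

/-! ### round spheres -/

/-- a natural band at a generic radius -/
def NBAND : Prop := ∀ {α : Type} [Finite α] (Y : α → Set E3) (c : E3) {r r' : ℝ}, 0 < r → r < r' →
  (∀ a, IsCompact (Y a) ∧ LocCone (Y a)) →
  ∃ (b : Band E3) (t : ℝ), r < t ∧ t < r' ∧ b.On univ ∧ b.W = sphere c t ∧ ConSphere 2 b.W ∧
    b.B ⊆ ball c r' ∧ ∀ a, b.Keeps (Y a)

/-- a point off the trace and off the discs of its circles is joined to the boundary -/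
def ARCJ : Prop := ∀ {D S T : Set E3} {x : E3}, ConBall 2 D S → T ⊆ D → Lev T S → x ∈ D → x ∉ T →
  (∀ Δ J, ConBall 2 Δ J → Δ ⊆ D → J ⊆ T → x ∉ Δ) →
  ∃ Z ⊆ D \ T, IsPreconnected Z ∧ x ∈ Z ∧ (Z ∩ S).Nonempty

/-- the surgery along round spheres -/
def SURGB : Prop := ∀ {Ω Λ : Set E3} {κ ι : Type} [Finite κ] [Finite ι] (X : Dat Ω Λ κ ι)
  (g : ConHomeo Ω Λ) (c : ι → E3) (r r' : ι → ℝ),
  (∀ i, 0 < r i ∧ r i < r' i ∧ X.U i = ball (c i) (r' i)) → (∀ k, g.toFun '' X.D k ⊆ X.O k) →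
  (∀ k j, X.U j ⊆ X.O k ∨ X.Anc g.toFun (X.D k) j) →
  ∃ g' : ConHomeo Ω Λ, Rel X g.toFun g'.toFun ∧ ∀ k, ∀ x ∈ X.D k, (∃ i, g'.toFun x ∈ X.U i) ∨
    ∃ Z ⊆ X.D k, IsPreconnected Z ∧ x ∈ Z ∧ (Z ∩ X.S k).Nonempty ∧
      ∀ i, Disjoint (g.toFun '' Z) (closedBall (c i) (r i))

/-! ### loops, covers, collapses -/

/-- a level whose crossing cells have small total weight -/
def LOOP : Prop := ∀ {E ι : Type} [TopologicalSpace E] (s : Finset ι) (q bq : ι → Set E)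
  (u : E → ℝ) (V W : ι → ℝ) {D S : Set E} {lam ω : ℝ}, 0 < lam → D ⊆ ⋃ i ∈ s, q i →
  (∀ i ∈ s, IsClosed (q i) ∧ (bq i).Nonempty ∧ bq i ⊆ q i ∧ S ∩ q i ⊆ bq i ∧ 0 ≤ V i ∧
    (∀ x ∈ bq i, ∀ y ∈ bq i, u x - u y ≤ W i) ∧ ∀ x ∈ q i, ∀ y ∈ q i, u x - u y ≤ ω) →
  (∀ i ∈ s, ∀ j ∈ s, i ≠ j → q i ∩ q j ⊆ bq i) → (∀ x ∈ S, u x ≤ lam) →
  ∃ s' ⊆ s, lam * ∑ i ∈ s', V i ≤ ∑ i ∈ s, V i * W i ∧
    (∀ i ∈ s', ∃ x ∈ bq i, u x ≤ 2 * lam) ∧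
    ∀ Z ⊆ D, IsPreconnected Z → (Z ∩ S).Nonempty → (∀ i ∈ s', Disjoint Z (bq i)) →
      ∀ x ∈ Z, u x ≤ 2 * lam + ω

/-- merging of balls -/
def COVER : Prop := ∀ {ι : Type} (s : Finset ι) (y : ι → E3) (V : ι → ℝ), (∀ i ∈ s, 0 < V i) →
  ∃ (t : Finset ι) (c : ι → E3) (r r' : ι → ℝ),
    (∀ j ∈ t, 0 < r j ∧ r j < r' j ∧ r' j ≤ 2 * r j ∧
      ∃ i ∈ s, closedBall (y i) (V i) ⊆ closedBall (c j) (r j)) ∧
    (∀ j ∈ t, ∀ j' ∈ t, j ≠ j' → Disjoint (ball (c j) (r' j)) (ball (c j') (r' j'))) ∧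
    (∀ i ∈ s, ∃ j ∈ t, closedBall (y i) (V i) ⊆ closedBall (c j) (r j)) ∧
    ∑ j ∈ t, r j ≤ ∑ i ∈ s, V i

/-- collapse of finitely many intervals -/
def ZETA : Prop := ∀ {ι : Type} (s : Finset ι) (m r : ι → ℝ), (∀ i ∈ s, 0 < r i) →
  ∃ J : Set ℝ, MeasurableSet J ∧ volume J ≤ ENNReal.ofReal (4 * ∑ i ∈ s, r i) ∧
    (∀ i ∈ s, Icc (m i - r i) (m i + r i) ⊆ J) ∧ ∀ σ : ℝ≥0, 0 < σ →
    ∃ ζ : ℝ → ℝ, PLOn ζ univ ∧ StrictMono ζ ∧ LipschitzWith 2 ζ ∧ (∀ t, t ∉ J → ζ t = t) ∧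
      (∀ t, |ζ t - t| ≤ 4 * ∑ i ∈ s, r i) ∧
      ∀ i ∈ s, LipschitzOnWith σ ζ (Icc (m i - r i) (m i + r i))

/-- collapse of finitely many balls -/
def COLL1 (K : ℝ≥0) : Prop := ∀ {ι : Type} (s : Finset ι) (c : ι → E3) (r : ι → ℝ) {R : ℝ},
  (∀ i ∈ s, 0 < r i) → ∑ i ∈ s, r i ≤ R →
  ∃ J : Fin 3 → Set ℝ, (∀ k, MeasurableSet (J k) ∧ volume (J k) ≤ ENNReal.ofReal (4 * R) ∧
    ∀ i ∈ s, Icc (c i k - r i) (c i k + r i) ⊆ J k) ∧ ∀ σ : ℝ≥0, 0 < σ →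
    ∃ Φ : ConHomeo (univ : Set E3) (univ : Set E3), LipschitzWith K Φ.toFun ∧
      (∀ y, (∀ i ∈ s, 20 * R ≤ dist y (c i)) → Φ.toFun y = y) ∧
      (∀ y, dist (Φ.toFun y) y ≤ 4 * R) ∧
      (∀ i ∈ s, LipschitzOnWith σ Φ.toFun (closedBall (c i) (r i))) ∧
      ∀ k t, t ∉ J k → ∀ y, (Φ.toFun y k = t ↔ y k = t)

/-- collapse of far apart clusters of balls -/
def COLL : Prop := ∃ K : ℝ≥0, ∀ {ι π : Type} [Fintype ι] [Finite π] [DecidableEq π] (a : ι → π)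
  (c : ι → E3) (r : ι → ℝ) (R : π → ℝ), (∀ i, 0 < r i) →
  (∀ n, ∑ i ∈ Finset.univ.filter (fun i => a i = n), r i ≤ R n) →
  (∀ i j, a i ≠ a j → 20 * R (a i) + 20 * R (a j) < dist (c i) (c j)) →
  ∃ J : π → Fin 3 → Set ℝ, (∀ n k, MeasurableSet (J n k) ∧
    volume (J n k) ≤ ENNReal.ofReal (4 * R n)) ∧
    (∀ i k, Icc (c i k - r i) (c i k + r i) ⊆ J (a i) k) ∧ ∀ σ : ℝ≥0, 0 < σ →
    ∃ Φ : ConHomeo (univ : Set E3) (univ : Set E3), LipschitzWith K Φ.toFun ∧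
      (∀ i, LipschitzOnWith σ Φ.toFun (closedBall (c i) (r i))) ∧
      ∀ y, Φ.toFun y = y ∨ ∃ i, dist y (c i) < 20 * R (a i) ∧ dist (Φ.toFun y) y ≤ 4 * R (a i) ∧
        ∀ k t, t ∉ J (a i) k → (Φ.toFun y k = t ↔ y k = t)

/-- lengths after the surgery and the collapse -/
def LEN : Prop := ∀ {ι : Type} [Finite ι] (U : ι → Set E3) {X : Set E3} {g g' Φ : E3 → E3}
  {K σ : ℝ≥0}, (∀ i, IsOpen (U i) ∧ LipschitzOnWith σ Φ (U i)) →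
  (∀ i j, i ≠ j → Disjoint (U i) (U j)) → LipschitzWith K Φ →
  (∀ x ∈ X, g' x = g x ∨ ∃ i, g' x ∈ U i) →
  μH[1] (Φ '' (g' '' X)) ≤ K * μH[1] (g '' X) + σ * μH[1] (g' '' X)

end P073.Sg
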