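import Vale.Agent.P073Y.Sg.Sk
import Vale.Agent.P073Z.Ax.Uni
import Vale.Agent.P073Z.SCH3F

/-!
# The middle ball is pushed into the third one
-/

open Set Metric Topology Filter

namespace P073.Sg

theorem frontier_sub {C B : Set E3} (h : ConBall 3 C B) : frontier C ⊆ B := fun x hx => by
  by_contra hB
  have h1 : IsOpen (C \ B) := jb.2 h ▸ (jb.1 h.conSphere).1
  exact hx.2 (interior_maximal sdiff_subset h1 ⟨h.isClosed.frontier_subset hx, hB⟩)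

theorem absorb : ABSORB := by
  intro X₁ X₂ X₃ G₀ G₁ G₂ G₃ J h1 h2 h3 g0 g1 g2 g3 i10 i12 i23 x12 x32 x13
  have s0 : G₀ ⊆ X₁ := subset_union_right.trans h1.1
  have s1 : G₁ ⊆ X₁ := subset_union_left.trans h1.1
  have s2 : G₂ ⊆ X₃ := subset_union_left.trans h3.1
  have s3 : G₃ ⊆ X₃ := subset_union_right.trans h3.1
  have i02 : G₀ ∩ G₂ = J :=
    Subset.antisymm ((inter_subset_inter s0 s2).trans x13) (subset_inter g0.1 g2.1)
  have i13 : G₁ ∩ G₃ = J :=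
    Subset.antisymm ((inter_subset_inter s1 s3).trans x13) (subset_inter g1.1 g3.1)
  have hA : ConBall 3 (X₁ ∪ X₂) (G₀ ∪ G₂) := Ax.uni3 h1 h2 g1 g0 g2 i10 i12 x12
  have hB : ConBall 3 (X₂ ∪ X₃) (G₁ ∪ G₃) := Ax.uni3 (union_comm G₁ G₂ ▸ h2) h3 g2 g1 g3
    (inter_comm G₁ G₂ ▸ i12) i23 (inter_comm X₃ X₂ ▸ x32)
  have x1B : X₁ ∩ (X₂ ∪ X₃) = G₁ := by
    rw [inter_union_distrib_left, x12]
    exact union_eq_self_of_subset_right (x13.trans g1.1)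
  have hW : ConBall 3 (X₁ ∪ (X₂ ∪ X₃)) (G₀ ∪ G₃) := Ax.uni3 h1 hB g1 g0 g3 i10 i13 x1B
  obtain ⟨Φ₁, a1, a2⟩ := Ax.ext3 (ConHomeo.refl g0.conicalSet) (union_comm G₁ G₀ ▸ h1) g0 g1
    (inter_comm G₁ G₀ ▸ i10) hA g0 g2 i02 (image_id J)
  have a3 : ∀ x ∈ J, Φ₁.toFun x = x := fun x hx => a1 (g0.1 hx)
  let φ : ConHomeo G₁ G₂ := (Φ₁.restr g1.conicalSet s1).cast rfl a2
  let ρ : ConHomeo G₃ G₃ := ConHomeo.refl g3.conicalSet
  have ag : EqOn φ.toFun ρ.toFun (G₁ ∩ G₃) := by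
    rw [i13]
    exact a3
  have im : G₂ ∩ G₃ ⊆ φ.toFun '' (G₁ ∩ G₃) := by
    rw [i13, i23]
    exact fun x hx => ⟨x, hx, a3 x hx⟩
  obtain ⟨Φ₂, b1, -⟩ := hB.exists_extend h3
    (φ.glue ρ g1.isClosed g3.isClosed g2.isClosed g3.isClosed ag im)
  have b2 : EqOn Φ₂.toFun Φ₁.toFun G₁ := fun x hx =>
    (b1 (Or.inl hx)).trans (ConHomeo.glue_left _ _ _ _ _ _ _ _ hx)
  have b3 : ∀ x ∈ G₃, Φ₂.toFun x = x := fun x hx =>
    (b1 (Or.inr hx)).trans (ConHomeo.glue_right _ _ _ _ _ _ _ _ hx)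
  have ag' : EqOn Φ₁.toFun Φ₂.toFun (X₁ ∩ (X₂ ∪ X₃)) := by
    rw [x1B]
    exact b2.symm
  have im' : (X₁ ∪ X₂) ∩ X₃ ⊆ Φ₁.toFun '' (X₁ ∩ (X₂ ∪ X₃)) := by
    rw [x1B, a2, union_inter_distrib_right, inter_comm X₂, x32]
    exact union_subset (x13.trans g2.1) subset_rfl
  have l := ConHomeo.glue_left Φ₁ Φ₂ h1.isClosed hB.isClosed hA.isClosed h3.isClosed ag' im'
  have r := ConHomeo.glue_right Φ₁ Φ₂ h1.isClosed hB.isClosed hA.isClosed h3.isClosed ag' im'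
  obtain ⟨H, c1, c2⟩ := ConHomeo.exists_extend_by_id hW.isClosed hW.locCone
    ((Φ₁.glue Φ₂ h1.isClosed hB.isClosed hA.isClosed h3.isClosed ag' im').cast rfl
      (union_assoc _ _ _)) fun x hx => by
      rcases frontier_sub hW hx with h | h
      · exact (l (s0 h)).trans (a1 h)
      · exact (r (Or.inr (s3 h))).trans (b3 x h)
  refine ⟨H, fun y hy => c2 y (by rwa [← union_assoc]), fun x hx => ?_⟩
  rw [c1 (Or.inr hx)]
  exact (show _ = Φ₂.toFun x from r hx) ▸ Φ₂.mapsTo hx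

end P073.Sg
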