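import Vale.Agent.P073Y.Sg.Sk

/-!
# Lengths after the surgery and the collapse
-/

open Set Metric Topology Filter MeasureTheory
open scoped NNReal ENNReal

namespace P073.Sg

theorem len : LEN := by
  intro ι _ U X g g' Φ K σ hU hd hΦ hX
  have hsub : Φ '' (g' '' X) ⊆ Φ '' (g '' X) ∪ ⋃ i, Φ '' (U i ∩ g' '' X) := by
    rintro _ ⟨_, ⟨x, hx, rfl⟩, rfl⟩
    rcases hX x hx with h | ⟨i, h⟩
    · exact Or.inl ⟨g x, mem_image_of_mem _ hx, by rw [h]⟩
    · exact Or.inr (mem_iUnion.2 ⟨i, g' x, ⟨h, mem_image_of_mem _ hx⟩, rfl⟩)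
  refine (measure_mono hsub).trans ((measure_union_le _ _).trans (add_le_add ?_ ?_))
  · simpa using hΦ.hausdorffMeasure_image_le zero_le_one (g '' X)
  · refine (measure_iUnion_le _).trans ?_
    have h1 : ∀ i, μH[1] (Φ '' (U i ∩ g' '' X)) ≤
        σ * (μH[1] : Measure E3).restrict (g' '' X) (U i) := fun i => by
      rw [Measure.restrict_apply (hU i).1.measurableSet]
      simpa using ((hU i).2.mono inter_subset_left).hausdorffMeasure_image_le zero_le_one
    refine (ENNReal.tsum_le_tsum h1).trans ?_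
    rw [ENNReal.tsum_mul_left, ← measure_iUnion (fun i j h => hd i j h)
      fun i => (hU i).1.measurableSet]
    exact mul_le_mul_right
      ((measure_mono (subset_univ _)).trans_eq (Measure.restrict_apply_univ _)) _

end P073.Sg
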